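import Vale.Agent.P217.H260.Defs
import Vale.Agent.P217B7.Defs

/-!
# P217: the closed fibre of Lubin-Tate space over a field `k ⊇ 𝔽_{p^n}`
-/

namespace Vale.Agent.N217

open MvPowerSeries Vale.Agent.P217.LT

variable (p n : ℕ) [Fact p.Prime] {k : Type} [Field k]

/-- The map `E₀ → k[[u_1, …, u_{n-1}]]` which reduces the coefficients modulo `p` and then
applies the embedding `i : 𝔽_{p^n} → k`. -/
noncomputable def toFibre (i : GaloisField p n →+* k) :
    E0 p n →+* MvPowerSeries (Fin (n - 1)) k :=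
  MvPowerSeries.map (i.comp WittVector.constantCoeff)

/-- The ideal `(u_1, …, u_{h-1})` of `k[[u_1, …, u_{n-1}]]`. -/
noncomputable def fibreIdeal (k : Type) [Field k] (h : ℕ) :
    Ideal (MvPowerSeries (Fin (n - 1)) k) :=
  Ideal.span {x | ∃ j : Fin (n - 1), (j : ℕ) + 1 < h ∧ x = X j}

/-- The `k`-algebra endomorphism `ψ` of `k[[u_1, …, u_{n-1}]]` extends the automorphism `φ` of
`E₀`. -/
def Extends (i : GaloisField p n →+* k) (φ : RingAut (E0 p n))
    (ψ : MvPowerSeries (Fin (n - 1)) k →ₐ[k] MvPowerSeries (Fin (n - 1)) k) : Prop :=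
  ∀ x, ψ (toFibre p n i x) = toFibre p n i (φ x)

/-- The ideal `J` is fixed by all `k`-linear extensions of elements of `U`. -/
def FixedBy (i : GaloisField p n →+* k) (U : Subgroup (RingAut (E0 p n)))
    (J : Ideal (MvPowerSeries (Fin (n - 1)) k)) : Prop :=
  ∀ φ ∈ U, ∀ ψ, Extends p n i φ ψ → J.map ψ = J

/-- The prime ideals of `k[[u_1, …, u_{n-1}]]` fixed by `U` are exactly the ideals
`(u_1, …, u_{h-1})`, `1 ≤ h ≤ n`; the radical ideals fixed by `U` are these and the unit ideal. -/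
def FibreIdeals (i : GaloisField p n →+* k) (U : Subgroup (RingAut (E0 p n))) : Prop :=
  ∀ J : Ideal (MvPowerSeries (Fin (n - 1)) k),
    ((J.IsPrime ∧ FixedBy p n i U J) ↔ ∃ h, 1 ≤ h ∧ h ≤ n ∧ J = fibreIdeal n k h) ∧
    ((J.IsRadical ∧ FixedBy p n i U J) ↔ (J = ⊤ ∨ ∃ h, 1 ≤ h ∧ h ≤ n ∧ J = fibreIdeal n k h))

/-- The class of `f` modulo `(u_1, …, u_{h-1})` is fixed by all `k`-linear extensions of elements
of `U`. -/
def FixedMod (i : GaloisField p n →+* k) (U : Subgroup (RingAut (E0 p n))) (h : ℕ)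
    (f : MvPowerSeries (Fin (n - 1)) k) : Prop :=
  ∀ φ ∈ U, ∀ ψ, Extends p n i φ ψ → ψ f - f ∈ fibreIdeal n k h

/-- The class of `f` modulo `(u_1, …, u_{h-1})` is an invariant of weight `b - a`: for every pair
`(φ, g)` which lifts an automorphism `γ` of the special fibre, `ψ(f) t^a ≡ f t^b`, where `ψ` extends
`φ` and `t` is the image of `g'(0)`. -/
def HasWeight (i : GaloisField p n →+* k) (F : FormalGroup (E0 p n)) (h a b : ℕ)
    (f : MvPowerSeries (Fin (n - 1)) k) : Prop :=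
  ∀ γ (φ : RingAut (E0 p n)) g ψ,
    Lifts (red p n) (red p n) (RingHom.id _) γ F F (φ : E0 p n →+* E0 p n) g →
    Extends p n i φ ψ → ψ f * toFibre p n i (PowerSeries.coeff 1 g) ^ a -
      f * toFibre p n i (PowerSeries.coeff 1 g) ^ b ∈ fibreIdeal n k h

/-- The image `v_h` of the coefficient of `X^(p^h)` in `[p]_F(X)`. -/
noncomputable def vFibre (i : GaloisField p n →+* k) (F : FormalGroup (E0 p n)) (h : ℕ) :
    MvPowerSeries (Fin (n - 1)) k :=
  toFibre p n i (PowerSeries.coeff (p ^ h) (multSeries F p))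

end Vale.Agent.N217
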