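import Mathlib

/-!
# P217: power series lemmas
-/

namespace Vale.Agent.N217

open MvPowerSeries

/-- the kernel of killing variables. -/
theorem ker_kill {σ τ R : Type*} [CommRing R] [Finite τ] (e : σ ↪ τ) (f : MvPowerSeries τ R) :
    killCompl e f = 0 ↔ f ∈ Ideal.span {x | ∃ j : τ, j ∉ Set.range e ∧ x = X j} := by
  classical
  have := Fintype.ofFinite τ
  constructor
  · intro hf
    let P : (τ →₀ ℕ) → Prop := fun d => ∃ i : τ, i ∉ Set.range e ∧ d i ≠ 0
    let c : (τ →₀ ℕ) → Option τ := fun d => if hd : P d then some hd.choose else none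
    have hc : ∀ d i, c d = some i → i ∉ Set.range e ∧ d i ≠ 0 := by
      intro d i hdi
      by_cases hd : P d
      · simp only [c, dif_pos hd, Option.some.injEq] at hdi
        rw [← hdi]
        exact hd.choose_spec
      · simp only [c, dif_neg hd] at hdi
        exact absurd hdi (by simp)
    let q : τ → MvPowerSeries τ R := fun i d => if c d = some i then coeff d f else 0
    have hq : ∀ i d, coeff d (q i) = if c d = some i then coeff d f else 0 := fun i d => rfl
    have hfr : f = ∑ i, q i := by
      ext1 d
      rw [map_sum]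
      simp_rw [hq]
      cases hcd : c d with
      | none =>
        have hPd : ¬ P d := by
          intro hP
          simp only [c, dif_pos hP] at hcd
          exact absurd hcd (by simp)
        have hd : d ∈ Set.range (Finsupp.embDomain e : (σ →₀ ℕ) → (τ →₀ ℕ)) := by
          rw [Finsupp.mem_range_embDomain_iff]
          intro i hi
          by_contra hne
          exact hPd ⟨i, hne, Finsupp.mem_support_iff.1 hi⟩
        obtain ⟨d', rfl⟩ := hd
        have h1 := congrArg (coeff d') hf
        rw [coeff_killCompl, map_zero] at h1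
        simp [h1]
      | some j => simp
    rw [hfr]
    refine Ideal.sum_mem _ fun i _ => ?_
    by_cases hi : i ∈ Set.range e
    · have h0 : q i = 0 := by
        ext d
        rw [hq, if_neg fun h => (hc d i h).1 hi, map_zero]
      rw [h0]
      exact Ideal.zero_mem _
    · have h1 : (X i : MvPowerSeries τ R) ∣ q i := by
        rw [X_dvd_iff]
        intro d hd
        rw [hq, if_neg fun h => (hc d i h).2 hd]
      obtain ⟨y, hy⟩ := h1
      rw [hy]
      exact Ideal.mul_mem_right _ _ (Ideal.subset_span ⟨i, hi, rfl⟩)
  · intro hf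
    have h1 : Ideal.span {x | ∃ j : τ, j ∉ Set.range e ∧ x = X j} ≤
        RingHom.ker (killCompl (R := R) e : MvPowerSeries τ R →ₐ[R] MvPowerSeries σ R) := by
      rw [Ideal.span_le]
      rintro _ ⟨j, hj, rfl⟩
      exact killCompl_X_eq_zero hj
    exact h1 hf

theorem kill_surj {σ τ R : Type*} [CommRing R] [Finite σ] (e : σ ↪ τ) :
    Function.Surjective (killCompl e : MvPowerSeries τ R → MvPowerSeries σ R) :=
  fun b => ⟨rename e b, killCompl_rename_app b⟩

theorem prime_X {σ R : Type*} [CommRing R] [IsDomain R] [Finite σ] (i : σ) :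
    Prime (X i : MvPowerSeries σ R) := by
  classical
  have hX : (X i : MvPowerSeries σ R) ≠ 0 := fun h => by
    have := congrArg (coeff (Finsupp.single i 1)) h
    simp at this
  rw [← Ideal.span_singleton_prime hX]
  let e : {j // j ≠ i} ↪ σ := Function.Embedding.subtype _
  have h1 : Ideal.span {(X i : MvPowerSeries σ R)} =
      RingHom.ker (killCompl (R := R) e : MvPowerSeries σ R →ₐ[R] MvPowerSeries _ R) := by
    ext f
    rw [RingHom.mem_ker, ker_kill]
    congr! 2
    ext x
    simp only [Set.mem_singleton_iff, Set.mem_ofPred_eq]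
    constructor
    · rintro rfl
      exact ⟨i, fun ⟨j, hj⟩ => j.2 hj, rfl⟩
    · rintro ⟨j, hj, rfl⟩
      by_cases h : j = i
      · rw [h]
      · exact absurd ⟨⟨j, h⟩, rfl⟩ hj
  rw [h1]
  have : IsDomain (MvPowerSeries {j // j ≠ i} R) := NoZeroDivisors.to_isDomain _
  exact RingHom.ker_isPrime _

end Vale.Agent.N217
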