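import Vale.Agent.N217.Defs
import Vale.Agent.N217.Kill
import Vale.Agent.P217.H260.Main
import Vale.Agent.P217B7.Main

/-!
# P217: invariant ideals of the closed fibre over an arbitrary field
-/

namespace Vale.Agent.N217

open MvPowerSeries Vale.Agent.P217 Pointwise

variable {p n : ℕ} [Fact p.Prime] {k : Type} [Field k]

theorem toFibre_X (i : GaloisField p n →+* k) (j : Fin (n - 1)) :
    toFibre p n i (X j) = X j := by
  rw [toFibre, map_X]

theorem cc_toFibre (i : GaloisField p n →+* k) (x : E0 p n) :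
    constantCoeff (toFibre p n i x) = i (red p n x) := by
  rw [toFibre, constantCoeff_map]
  rfl

theorem toFibre_C (i : GaloisField p n →+* k) (c : WittVector p (GaloisField p n)) :
    toFibre p n i (C c) = C (i (red p n (C c))) := by
  rw [toFibre, map_C, red, RingHom.comp_apply, RingHom.comp_apply, constantCoeff_C]

theorem charP_of (i : GaloisField p n →+* k) : CharP k p :=
  charP_of_injective_ringHom i.injective p

theorem toFibre_p (i : GaloisField p n →+* k) : toFibre p n i (p : E0 p n) = 0 := by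
  have := charP_of i
  have := HT_charP_mvPowerSeries (σ := Fin (n - 1)) (R := k) p
  rw [map_natCast, CharP.cast_eq_zero]

theorem map_heightIdeal (i : GaloisField p n →+* k) {h : ℕ} (hh : 1 ≤ h) :
    (heightIdeal p n h).map (toFibre p n i) = fibreIdeal n k h := by
  rw [heightIdeal_of_pos hh, Ideal.map_span, fibreIdeal]
  apply le_antisymm
  · rw [Ideal.span_le]
    rintro _ ⟨x, hx | ⟨j, hj, rfl⟩, rfl⟩
    · rw [Set.mem_singleton_iff] at hx
      rw [hx, toFibre_p]
      exact Ideal.zero_mem _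
    · rw [toFibre_X]
      exact Ideal.subset_span ⟨j, hj, rfl⟩
  · refine Ideal.span_mono ?_
    rintro _ ⟨j, hj, rfl⟩
    exact ⟨X j, Or.inr ⟨j, hj, rfl⟩, toFibre_X i j⟩

theorem red_X (j : Fin (n - 1)) : red p n (X j) = 0 := by
  rw [red, RingHom.comp_apply, constantCoeff_X, map_zero]

theorem red_aut_X (φ : RingAut (E0 p n)) (j : Fin (n - 1)) : red p n (φ (X j)) = 0 := by
  rw [← RingHom.mem_ker, C0.ker_red]
  intro hu
  have h1 : IsUnit (X j : E0 p n) := by
    have := hu.map φ.symm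
    rwa [RingEquiv.symm_apply_apply] at this
  have h2 := h1.map (red p n)
  rw [red_X] at h2
  exact not_isUnit_zero h2

theorem Extends.cc_X {i : GaloisField p n →+* k} {φ : RingAut (E0 p n)}
    {ψ : MvPowerSeries (Fin (n - 1)) k →ₐ[k] MvPowerSeries (Fin (n - 1)) k}
    (h : Extends p n i φ ψ) (j : Fin (n - 1)) : constantCoeff (ψ (X j)) = 0 := by
  rw [← toFibre_X i, h, cc_toFibre, red_aut_X, map_zero]

theorem Extends.unique {i : GaloisField p n →+* k} {φ : RingAut (E0 p n)}
    {ψ ψ' : MvPowerSeries (Fin (n - 1)) k →ₐ[k] MvPowerSeries (Fin (n - 1)) k}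
    (h : Extends p n i φ ψ) (h' : Extends p n i φ ψ') : ψ = ψ' := by
  apply AlgHom.coe_ringHom_injective
  refine bc_hom_ext (fun c => ?_) (fun j => ?_) (fun j => h.cc_X j)
  · exact (ψ.commutes c).trans (ψ'.commutes c).symm
  · change ψ (X j) = ψ' (X j)
    rw [← toFibre_X i, h, h']

theorem Extends.cc {i : GaloisField p n →+* k} {φ : RingAut (E0 p n)}
    {ψ : MvPowerSeries (Fin (n - 1)) k →ₐ[k] MvPowerSeries (Fin (n - 1)) k}
    (h : Extends p n i φ ψ) (f : MvPowerSeries (Fin (n - 1)) k) :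
    constantCoeff (ψ f) = constantCoeff f := by
  obtain ⟨g, hg⟩ := exists_decomp f
  have h1 : ψ (C (constantCoeff f)) = C (constantCoeff f) := ψ.commutes _
  conv_lhs => rw [hg]
  simp only [map_add, map_sum, map_mul, h1, h.cc_X, constantCoeff_C, zero_mul,
    Finset.sum_const_zero, add_zero]

theorem exists_ext_hom (hn : 1 ≤ n) (i : GaloisField p n →+* k) (φ : RingAut (E0 p n))
    (hred : ∀ x, red p n (φ x) = red p n x) : ∃ ψ, Extends p n i φ ψ := by
  have := charP_of i
  have h0 : ∀ j, constantCoeff (toFibre p n i (φ (X j))) = 0 := fun j => by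
    rw [cc_toFibre, red_aut_X, map_zero]
  have ha : HasSubst (fun j => toFibre p n i (φ (X j))) := hasSubst_of_constantCoeff_zero h0
  set ψ : MvPowerSeries (Fin (n - 1)) k →ₐ[k] MvPowerSeries (Fin (n - 1)) k := substAlgHom ha
    with hψ
  have hX : ∀ j, ψ (X j) = toFibre p n i (φ (X j)) := fun j => by rw [hψ, substAlgHom_X]
  have key : (ψ : MvPowerSeries (Fin (n - 1)) k →+* MvPowerSeries (Fin (n - 1)) k).comp
      (toFibre p n i) = (toFibre p n i).comp (φ : E0 p n →+* E0 p n) := by
    refine bc_hom_ext (fun c => ?_) (fun j => ?_) (fun j => ?_)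
    · change ψ (toFibre p n i (C c)) = toFibre p n i (φ (C c))
      have h1 : (toFibre p n i (φ (C c))) ^ p ^ n = toFibre p n i (φ (C c)) := by
        have h2 : (c ^ p ^ n - c).coeff 0 = 0 := by
          have h3 : WittVector.constantCoeff (c ^ p ^ n - c) = 0 := by
            rw [map_sub, map_pow, galois_pow hn, sub_self]
          exact h3
        obtain ⟨y, hy⟩ := Ideal.mem_span_singleton.1
          ((WittVector.mem_span_p_iff_coeff_zero_eq_zero _).2 h2)
        rw [← sub_eq_zero, ← map_pow, ← map_pow, ← map_pow, ← map_sub, ← map_sub, ← map_sub, hy,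
          map_mul, map_mul, map_mul, map_natCast, map_natCast, toFibre_p, zero_mul]
      rw [eq_C_of_pow_eq (p := p) hn h1, cc_toFibre, hred, toFibre_C]
      exact ψ.commutes _
    · change ψ (toFibre p n i (X j)) = toFibre p n i (φ (X j))
      rw [toFibre_X, hX]
    · change constantCoeff (ψ (toFibre p n i (X j))) = 0
      rw [toFibre_X, hX, h0]
  exact ⟨ψ, fun x => RingHom.congr_fun key x⟩

theorem exists_ext (hn : 1 ≤ n) (i : GaloisField p n →+* k) (φ : RingAut (E0 p n))
    (hred : ∀ x, red p n (φ x) = red p n x) :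
    ∃ ψ : MvPowerSeries (Fin (n - 1)) k ≃ₐ[k] MvPowerSeries (Fin (n - 1)) k,
      Extends p n i φ ψ := by
  obtain ⟨ψ, hψ⟩ := exists_ext_hom hn i φ hred
  obtain ⟨ψ', hψ'⟩ := exists_ext_hom hn i φ⁻¹ fun x => by
    rw [← hred (φ⁻¹ x)]
    exact congrArg _ (φ.apply_symm_apply x)
  have h1 : Extends p n i 1 (AlgHom.id k _) := fun x => rfl
  refine ⟨AlgEquiv.ofAlgHom ψ ψ' (Extends.unique (fun x => ?_) h1)
    (Extends.unique (fun x => ?_) h1), hψ⟩
  · rw [AlgHom.comp_apply, hψ', hψ]
    exact congrArg _ (φ.apply_symm_apply x)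
  · rw [AlgHom.comp_apply, hψ, hψ']
    exact congrArg _ (φ.symm_apply_apply x)

theorem Extends.map_fibre {i : GaloisField p n →+* k} {φ : RingAut (E0 p n)}
    {ψ : MvPowerSeries (Fin (n - 1)) k →ₐ[k] MvPowerSeries (Fin (n - 1)) k}
    (e : Extends p n i φ ψ) {h : ℕ} (hh : 1 ≤ h)
    (hI : (heightIdeal p n h).map (φ : E0 p n →+* E0 p n) = heightIdeal p n h) :
    (fibreIdeal n k h).map ψ = fibreIdeal n k h := by
  have key : (ψ : MvPowerSeries (Fin (n - 1)) k →+* MvPowerSeries (Fin (n - 1)) k).comp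
      (toFibre p n i) = (toFibre p n i).comp (φ : E0 p n →+* E0 p n) := RingHom.ext e
  change (fibreIdeal n k h).map
    (ψ : MvPowerSeries (Fin (n - 1)) k →+* MvPowerSeries (Fin (n - 1)) k) = _
  rw [← map_heightIdeal i hh, Ideal.map_map, key, ← Ideal.map_map, hI]

/-- the quotient map `k[[u_1, …]] → k[[u_h, …]]`. -/
noncomputable abbrev kl (n : ℕ) (k : Type) [Field k] (h : ℕ) (hh : 1 ≤ h) (hn : h ≤ n) :
    MvPowerSeries (Fin (n - 1)) k →ₐ[k] MvPowerSeries (Fin (n - h)) k :=
  killCompl (embH n h hh hn)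

theorem kl_eq_zero {h : ℕ} (hh : 1 ≤ h) (hn : h ≤ n) (f : MvPowerSeries (Fin (n - 1)) k) :
    kl n k h hh hn f = 0 ↔ f ∈ fibreIdeal n k h := by
  rw [ker_kill, fibreIdeal]
  congr! 7 with x j
  constructor
  · intro hj
    by_contra hlt
    refine hj ⟨⟨(j : ℕ) - (h - 1), by have := j.2; omega⟩, Fin.ext ?_⟩
    rw [val_embH]
    dsimp only
    omega
  · rintro hj ⟨a, ha⟩
    have := congrArg Fin.val ha
    rw [val_embH] at this
    omega

theorem fibre_prime {h : ℕ} (hh : 1 ≤ h) (hn : h ≤ n) : (fibreIdeal n k h).IsPrime := by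
  have h1 : fibreIdeal n k h = RingHom.ker (kl n k h hh hn) := by
    ext f
    rw [RingHom.mem_ker, kl_eq_zero]
  rw [h1]
  have : IsDomain (MvPowerSeries (Fin (n - h)) k) := NoZeroDivisors.to_isDomain _
  exact RingHom.ker_isPrime _

theorem fibre_mono {h h' : ℕ} (hle : h ≤ h') : fibreIdeal n k h ≤ fibreIdeal n k h' := by
  refine Ideal.span_mono ?_
  rintro x ⟨i, hi, rfl⟩
  exact ⟨i, by omega, rfl⟩

theorem fibre_zero : fibreIdeal n k 0 = fibreIdeal n k 1 := by
  refine le_antisymm (fibre_mono zero_le_one) (Ideal.span_mono ?_)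
  rintro x ⟨i, hi, rfl⟩
  omega

theorem kl_toFibre (i : GaloisField p n →+* k) {h : ℕ} (hh : 1 ≤ h) (hn : h ≤ n) (x : E0 p n) :
    kl n k h hh hn (toFibre p n i x) = MvPowerSeries.map i (piH p n h hh hn x) := by
  ext d
  rw [coeff_killCompl, coeff_map, coeff_piH, toFibre, coeff_map]
  rfl

theorem mem_of_kl {h : ℕ} (hh : 1 ≤ h) (hn : h ≤ n) {J : Ideal (MvPowerSeries (Fin (n - 1)) k)}
    (hJ : fibreIdeal n k h ≤ J) {x : MvPowerSeries (Fin (n - 1)) k}
    (hx : kl n k h hh hn x ∈ J.map (kl n k h hh hn)) : x ∈ J := by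
  rw [Ideal.mem_map_iff_of_surjective _ (kill_surj _)] at hx
  obtain ⟨y, hy, hxy⟩ := hx
  have hsub : x - y ∈ fibreIdeal n k h := by
    rw [← kl_eq_zero hh hn, map_sub, hxy, sub_self]
  have := J.add_mem (hJ hsub) hy
  rwa [sub_add_cancel] at this

variable {Γ : FormalGroup (ZMod p)} {F : FormalGroup (E0 p n)}

/-- stability under all `k`-linear extensions. -/
def Stab (i : GaloisField p n →+* k) (F : FormalGroup (E0 p n))
    (J : Ideal (MvPowerSeries (Fin (n - 1)) k)) : Prop :=
  ∀ (φ : RingAut (E0 p n))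
    (ψ : MvPowerSeries (Fin (n - 1)) k ≃ₐ[k] MvPowerSeries (Fin (n - 1)) k),
    H260.ActIso F φ → Extends p n i φ ψ → ∀ x ∈ J, ψ x ∈ J

theorem step (hn1 : 1 ≤ n) (hΓ : IsHonda p n Γ) (hF : IsUniversalDeformation p n Γ F)
    (hH : HeightAdapted p n F) (i : GaloisField p n →+* k) {h : ℕ} (hh : 1 ≤ h) (hlt : h < n)
    {J : Ideal (MvPowerSeries (Fin (n - 1)) k)} (hJ : Stab i F J) (hle : fibreIdeal n k h ≤ J)
    (hX : X (embH n h hh hlt.le ⟨0, Nat.sub_pos_of_lt hlt⟩) ∉ J.radical) :
    J ≤ fibreIdeal n k h := by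
  set K := AlgebraicClosure k with hK
  set j : k →+* K := algebraMap k K with hj
  set i' : GaloisField p n →+* K := j.comp i with hi'
  have hcard : Nat.card (GaloisField p n) = p ^ n := GaloisField.card p n (by omega)
  have hfix : ∀ ω' : K, ω' ^ (p ^ n) = ω' → ∃ ω, i' ω = ω' := by
    intro ω' hω'
    rw [← hcard] at hω'
    exact bc_exists_of_pow_card i' ω' hω'
  have : CharP K p := charP_of_injective_ringHom i'.injective p
  obtain ⟨A, hA⟩ := exists_famFG hn1 hΓ hF hH h hh hlt
  have hΓ₀ := IsHonda.hondaLike hn1 hΓ (GaloisField p n) (algebraMap (ZMod p) (GaloisField p n))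
  set π : MvPowerSeries (Fin (n - 1)) k →+* MvPowerSeries (Fin (n - h)) K :=
    (MvPowerSeries.map j).comp (kl n k h hh hlt.le :
      MvPowerSeries (Fin (n - 1)) k →+* MvPowerSeries (Fin (n - h)) k) with hπ
  have hπt : ∀ x, π (toFibre p n i x) = MvPowerSeries.map i' (piH p n h hh hlt.le x) := by
    intro x
    change MvPowerSeries.map j (kl n k h hh hlt.le (toFibre p n i x)) = _
    rw [kl_toFibre, hi', MvPowerSeries.map_comp]
    rfl
  have hbot : J.map π = ⊥ := by
    refine core (hΓ₀.bc i' hfix) (A.bc i') _ ?_ ?_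
    · rintro ⟨m, hm⟩
      refine hX ⟨m, mem_of_kl hh hlt.le hle ?_⟩
      rw [hπ, ← Ideal.map_map] at hm
      refine bc_mem_of_map_mem (K := K) _ _ ?_
      rw [map_pow, killCompl_X, map_pow, map_X]
      exact hm
    · intro ω' hω' l hl
      obtain ⟨ω, rfl⟩ := hfix ω' hω'
      obtain ⟨φ, g, hred, hiso, hg⟩ := exists_phi hF _ (isIso_gser hΓ₀ ω l hl)
      have hinv := isInvariant_heightIdeal hn1 hΓ hF hH h hlt.le φ g hiso
      obtain ⟨φ', hφ', hφ0⟩ := exists_descent hn1 h hh hlt.le (φ : E0 p n →+* E0 p n) hred hinv.le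
      have hg' : IsIso A.G (A.G.map (φ' : MvPowerSeries (Fin (n - h)) (GaloisField p n) →+*
          MvPowerSeries (Fin (n - h)) (GaloisField p n))) (g.map (piH p n h hh hlt.le)) := by
        have h1 := hiso.fbMap (piH p n h hh hlt.le)
        rw [fbMap_map, ← hφ', ← fbMap_map, ← hA] at h1
        exact h1
      have hredg : (g.map (piH p n h hh hlt.le)).map MvPowerSeries.constantCoeff =
          gser p (Γ.map (algebraMap (ZMod p) (GaloisField p n))) ω l := by
        rw [← hg]
        ext a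
        rw [PowerSeries.coeff_map, PowerSeries.coeff_map, PowerSeries.coeff_map, constantCoeff_piH]
      obtain ⟨L', hL'⟩ := bc_lift A i' (⟨φ', hφ0, _, hg', hredg⟩ : Lift A ω l)
      obtain ⟨ψ, hψ⟩ := exists_ext hn1 i φ (RingHom.congr_fun hred)
      have e1 : ∀ x, L'.φ (π (toFibre p n i x)) = π (toFibre p n i (φ x)) := by
        intro x
        rw [hπt, hL', hπt]
        exact congrArg _ (RingHom.congr_fun hφ' x)
      have e2 : (L'.φ : MvPowerSeries (Fin (n - h)) K →+* MvPowerSeries (Fin (n - h)) K).comp π =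
          π.comp ((ψ : MvPowerSeries (Fin (n - 1)) k →ₐ[k] MvPowerSeries (Fin (n - 1)) k) :
            MvPowerSeries (Fin (n - 1)) k →+* MvPowerSeries (Fin (n - 1)) k) := by
        refine bc_hom_ext (fun c => ?_) (fun a => ?_) (fun a => ?_)
        · have h1 : ψ (C c) = C c := ψ.commutes c
          have h2 : π (C c) = C (j c) := by
            have h3 : kl n k h hh hlt.le (C c) = C c := (kl n k h hh hlt.le).commutes c
            change MvPowerSeries.map j (kl n k h hh hlt.le (C c)) = _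
            rw [h3, map_C]
          change L'.φ (π (C c)) = π (ψ (C c))
          rw [h1, h2]
          exact L'.φ.commutes _
        · change L'.φ (π (X a)) = π (ψ (X a))
          rw [← toFibre_X i, e1]
          exact congrArg _ (hψ _).symm
        · change constantCoeff (L'.φ (π (X a))) = 0
          rw [← toFibre_X i, e1, hπt, constantCoeff_map, constantCoeff_piH, red_aut_X, map_zero]
      refine ⟨L', ?_⟩
      rw [Ideal.map_le_iff_le_comap]
      intro f hf
      rw [Ideal.mem_comap, Ideal.mem_comap, ← RingHom.comp_apply, e2]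
      exact Ideal.mem_map_of_mem _ (hJ φ ψ ⟨g, hiso⟩ hψ f hf)
  intro f hf
  have h1 := Ideal.mem_map_of_mem π hf
  rw [hbot, Ideal.mem_bot] at h1
  rw [← kl_eq_zero hh hlt.le]
  ext d
  have h2 := congrArg (coeff d) h1
  change coeff d (MvPowerSeries.map j (kl n k h hh hlt.le f)) = _ at h2
  rw [coeff_map, map_zero] at h2
  rw [map_zero]
  exact j.injective (by rw [h2, map_zero])

theorem mem_fibre_top (hn : 1 ≤ n) {f : MvPowerSeries (Fin (n - 1)) k} :
    f ∈ fibreIdeal n k n ↔ constantCoeff f = 0 := by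
  constructor
  · intro hf
    have h1 : fibreIdeal n k n ≤ RingHom.ker constantCoeff := by
      rw [fibreIdeal, Ideal.span_le]
      rintro _ ⟨j, -, rfl⟩
      exact constantCoeff_X j
    exact h1 hf
  · intro hf
    obtain ⟨g, hg⟩ := exists_decomp f
    rw [hg, hf, map_zero, zero_add]
    exact Ideal.sum_mem _ fun j _ => Ideal.mul_mem_right _ _
      (Ideal.subset_span ⟨j, by have := j.2; omega, rfl⟩)

theorem classify (hn1 : 1 ≤ n) (hΓ : IsHonda p n Γ) (hF : IsUniversalDeformation p n Γ F)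
    (hH : HeightAdapted p n F) (i : GaloisField p n →+* k)
    {J : Ideal (MvPowerSeries (Fin (n - 1)) k)} (hJ : Stab i F J) (hrad : J.IsRadical) :
    J = ⊤ ∨ ∃ h ≤ n, J = fibreIdeal n k h := by
  classical
  by_cases htop : J = ⊤
  · exact Or.inl htop
  right
  have h1 : fibreIdeal n k 1 ≤ J := by
    rw [fibreIdeal, Ideal.span_le]
    rintro x ⟨a, ha, rfl⟩
    omega
  let P : ℕ → Prop := fun h => 1 ≤ h ∧ fibreIdeal n k h ≤ J
  have hP1 : P 1 := ⟨le_rfl, h1⟩
  set h := Nat.findGreatest P n with hh_def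
  have hPh : P h := Nat.findGreatest_spec hn1 hP1
  have hle : h ≤ n := Nat.findGreatest_le n
  refine ⟨h, hle, le_antisymm ?_ hPh.2⟩
  rcases hle.eq_or_lt with heq | hlt
  · rw [heq]
    intro f hf
    rw [mem_fibre_top hn1]
    by_contra h0
    exact htop (Ideal.eq_top_of_isUnit_mem _ hf
      (isUnit_iff_constantCoeff.2 (isUnit_iff_ne_zero.2 h0)))
  · refine step hn1 hΓ hF hH i hPh.1 hlt hJ hPh.2 fun hX => ?_
    have hP' : P (h + 1) := by
      refine ⟨by omega, ?_⟩
      rw [fibreIdeal, Ideal.span_le]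
      rintro x ⟨a, ha, rfl⟩
      by_cases ha' : (a : ℕ) + 1 < h
      · exact hPh.2 (Ideal.subset_span ⟨a, ha', rfl⟩)
      · have : a = embH n h hPh.1 hlt.le ⟨0, Nat.sub_pos_of_lt hlt⟩ := by
          apply Fin.ext
          rw [val_embH]
          have := hPh.1
          dsimp only
          omega
        rw [this]
        exact hrad hX
    have := Nat.le_findGreatest (P := P) (show h + 1 ≤ n by omega) hP'
    omega

end Vale.Agent.N217
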