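import Mathlib

/-!
# P217: a nonconstant power series is moved by every substitution close to the identity
-/

namespace Vale.Agent.N217

open PowerSeries

variable {k : Type*} [Field k]

theorem alg_coe (α : k⟦X⟧ →ₐ[k] k⟦X⟧) (P : Polynomial k) :
    α (P : k⟦X⟧) = (P.map (algebraMap k k⟦X⟧)).eval (α X) := by
  rw [Polynomial.eval_map_algebraMap, Polynomial.aeval_algHom_apply]
  congr 1
  induction P using Polynomial.induction_on' with
  | add P Q h1 h2 => rw [Polynomial.coe_add, map_add, h1, h2]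
  | monomial m a =>
    rw [Polynomial.aeval_monomial, Polynomial.coe_monomial, monomial_eq_C_mul_X_pow]
    rfl

theorem split_trunc (f : k⟦X⟧) (N : ℕ) : ∃ r, f = (trunc N f : k⟦X⟧) + X ^ N * r := by
  have h : (X : k⟦X⟧) ^ N ∣ f - (trunc N f : k⟦X⟧) := by
    rw [X_pow_dvd_iff]
    intro m hm
    rw [map_sub, Polynomial.coeff_coe, coeff_trunc, if_pos hm, sub_self]
  obtain ⟨r, hr⟩ := h
  exact ⟨r, by rw [← hr]; ring⟩

theorem dvd_sub_alg {α β : k⟦X⟧ →ₐ[k] k⟦X⟧} (hα : X ∣ α X) (hβ : X ∣ β X)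
    (h0 : α X - β X ≠ 0) (f : k⟦X⟧) : α X - β X ∣ α f - β f := by
  set d := (α X - β X).order.toNat
  have hd : α X - β X ∣ X ^ d := by
    have h1 := X_pow_order_mul_divXPowOrder (f := α X - β X)
    have h2 := isUnit_divided_by_X_pow_order h0
    obtain ⟨u, hu⟩ := h2
    refine ⟨(u⁻¹ : k⟦X⟧ˣ), ?_⟩
    rw [← h1, ← hu, mul_assoc, Units.mul_inv, mul_one]
  obtain ⟨r, hr⟩ := split_trunc f d
  have e : α f - β f = (α (trunc d f : k⟦X⟧) - β (trunc d f : k⟦X⟧)) +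
      (α X ^ d * α r - β X ^ d * β r) := by
    conv_lhs => rw [hr]
    simp only [map_add, map_mul, map_pow]
    ring
  rw [e]
  refine dvd_add ?_ (hd.trans (dvd_sub ((pow_dvd_pow_of_dvd hα d).mul_right _)
    ((pow_dvd_pow_of_dvd hβ d).mul_right _)))
  rw [alg_coe, alg_coe]
  exact Polynomial.sub_dvd_eval_sub _ _ _

theorem taylor_alg {α β : k⟦X⟧ →ₐ[k] k⟦X⟧} (hα : X ∣ α X) (hβ : X ∣ β X)
    (h0 : α X - β X ≠ 0) (f : k⟦X⟧) (N : ℕ) : ∃ c h, α f - β f =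
      (α X - β X) * (β ((trunc (N + 1) f).derivative : k⟦X⟧) + (α X - β X) * c + X ^ N * h) := by
  obtain ⟨r, hr⟩ := split_trunc f (N + 1)
  obtain ⟨c, hc⟩ := Polynomial.binomExpansion ((trunc (N + 1) f).map (algebraMap k k⟦X⟧)) (β X)
    (α X - β X)
  rw [add_sub_cancel, Polynomial.derivative_map, ← alg_coe, ← alg_coe, ← alg_coe] at hc
  obtain ⟨t, ht⟩ := dvd_sub_alg hα hβ h0 r
  have h1 : (X : k⟦X⟧) ^ N ∣ ∑ i ∈ Finset.range (N + 1), α X ^ i * β X ^ (N + 1 - 1 - i) := by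
    refine Finset.dvd_sum fun i hi => ?_
    have hi' : N = i + (N + 1 - 1 - i) := by
      have := Finset.mem_range.1 hi
      omega
    conv_lhs => rw [hi', pow_add]
    exact mul_dvd_mul (pow_dvd_pow_of_dvd hα _) (pow_dvd_pow_of_dvd hβ _)
  obtain ⟨s, hs⟩ := h1
  have h2 := (Commute.all (α X) (β X)).geom_sum₂_mul (N + 1)
  rw [hs] at h2
  obtain ⟨b, hb⟩ := pow_dvd_pow_of_dvd hβ N
  refine ⟨c, s * α r + b * β X * t, ?_⟩
  have e : α f - β f = (α (trunc (N + 1) f : k⟦X⟧) - β (trunc (N + 1) f : k⟦X⟧)) +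
      ((α X ^ (N + 1) - β X ^ (N + 1)) * α r + β X ^ N * β X * (α r - β r)) := by
    conv_lhs => rw [hr]
    simp only [map_add, map_mul, map_pow]
    ring
  rw [e, hc, ← h2, ht, hb]
  ring

theorem moved (p : ℕ) [Fact p.Prime] [CharP k p] {w : k⟦X⟧} {m₁ : ℕ} (h1 : m₁ ≠ 0)
    (hw : coeff m₁ w ≠ 0) : ∃ e, 1 ≤ e ∧ ∀ ψ : k⟦X⟧ →ₐ[k] k⟦X⟧,
      X ^ e ∣ ψ X - X → ψ w = w → ψ X = X := by
  classical
  have hp : p.Prime := Fact.out
  have hex : ∃ s, ∃ m, coeff m w ≠ 0 ∧ ¬ p ^ (s + 1) ∣ m := by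
    refine ⟨m₁, m₁, hw, fun h => ?_⟩
    have h2 := Nat.le_of_dvd (Nat.pos_of_ne_zero h1) h
    have h3 := Nat.lt_pow_self (n := m₁ + 1) hp.one_lt
    omega
  obtain ⟨m₀, hm₀, hnd⟩ := Nat.find_spec hex
  set s := Nat.find hex with hs
  have hall : ∀ m, coeff m w ≠ 0 → p ^ s ∣ m := by
    intro m hm
    rcases Nat.eq_zero_or_pos s with h0 | h0
    · rw [h0, pow_zero]
      exact one_dvd _
    · by_contra hc
      refine Nat.find_min hex (m := s - 1) (by omega) ⟨m, hm, ?_⟩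
      rwa [Nat.sub_add_cancel h0]
  have hq : p ^ s ≠ 0 := pow_ne_zero _ hp.ne_zero
  obtain ⟨m', hm'⟩ := hall m₀ hm₀
  have hpm : ¬ p ∣ m' := fun h => hnd (by rw [hm', pow_succ]; exact Nat.mul_dvd_mul_left _ h)
  obtain ⟨a, rfl⟩ : ∃ a, m' = a + 1 :=
    Nat.exists_eq_succ_of_ne_zero fun h => hpm (by rw [h]; exact dvd_zero p)
  set w₁ : k⟦X⟧ := mk fun j => coeff (p ^ s * j) w with hw₁
  have hE : expand (p ^ s) hq w₁ = w := by
    ext m
    rw [coeff_expand]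
    split_ifs with h
    · rw [hw₁, coeff_mk, Nat.mul_div_cancel' h]
    · by_contra h2
      exact h (hall m fun h3 => h2 h3.symm)
  refine ⟨m₀ + 1, by omega, fun ψ hψ hinv => ?_⟩
  by_contra hne
  have hδ : ψ X - X ≠ 0 := sub_ne_zero.2 hne
  have hX : X ∣ ψ X := by
    have h2 := (dvd_pow_self (X : k⟦X⟧) (Nat.succ_ne_zero m₀)).trans hψ
    simpa using dvd_add h2 (dvd_refl (X : k⟦X⟧))
  have hch : CharP k⟦X⟧ p := charP_of_injective_ringHom (f := (C : k →+* k⟦X⟧)) C_injective p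
  have hec := ExpChar.prime (R := k⟦X⟧) hp
  set β : k⟦X⟧ →ₐ[k] k⟦X⟧ := expand (p ^ s) hq with hβ
  have eβ : β X = X ^ p ^ s := expand_X _ _
  have eα : (ψ.comp β) X = ψ X ^ p ^ s := by rw [AlgHom.comp_apply, eβ, map_pow]
  have eε : (ψ.comp β) X - β X = (ψ X - X) ^ p ^ s := by rw [eα, eβ, sub_pow_expChar_pow]
  obtain ⟨c, h, hT⟩ := taylor_alg (α := ψ.comp β) (β := β)
    (by rw [eα]; exact hX.trans (dvd_pow_self _ hq)) (by rw [eβ]; exact dvd_pow_self _ hq)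
    (by rw [eε]; exact pow_ne_zero _ hδ) w₁ (m₀ + 1)
  rw [AlgHom.comp_apply, hE, hinv, sub_self, eq_comm, mul_eq_zero, eε] at hT
  have h3 := hT.resolve_left (pow_ne_zero _ hδ)
  have hlt : p ^ s * a < m₀ + 1 := by rw [hm', mul_add]; omega
  have h4 := congrArg (coeff (p ^ s * a)) h3
  rw [map_add, map_add, X_pow_dvd_iff.1 ((hψ.trans (dvd_pow_self _ hq)).mul_right c) _ hlt,
    X_pow_dvd_iff.1 (dvd_mul_right _ h) _ hlt, add_zero, add_zero, hβ, coeff_expand,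
    if_pos (dvd_mul_right _ _), Nat.mul_div_cancel_left _ (Nat.pos_of_ne_zero hq),
    Polynomial.coeff_coe, Polynomial.coeff_derivative, coeff_trunc, if_pos, hw₁, coeff_mk, ← hm',
    map_zero, mul_eq_zero] at h4
  · rcases h4 with h4 | h4
    · exact hm₀ h4
    · refine hpm ((CharP.cast_eq_zero_iff k p _).1 ?_)
      exact_mod_cast h4
  · have h5 : a + 1 ≤ m₀ := by
      rw [hm']
      exact Nat.le_mul_of_pos_left _ (Nat.pos_of_ne_zero hq)
    omega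

end Vale.Agent.N217
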