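import Vale.Agent.N217.Rig
import Vale.Agent.N217.One

/-!
# P217: invariant functions on the height strata of the closed fibre are constant
-/

namespace Vale.Agent.N217

open MvPowerSeries Vale.Agent.P217

variable {p n : ℕ} [Fact p.Prime] {k : Type} [Field k] {Γ : FormalGroup (ZMod p)}
  {F : FormalGroup (E0 p n)}

/-- the image of the coefficient of `X^(p^h)` in the `p`-series. -/
noncomputable def vv (i : GaloisField p n →+* k) (F : FormalGroup (E0 p n)) (h : ℕ) :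
    MvPowerSeries (Fin (n - 1)) k :=
  toFibre p n i (PowerSeries.coeff (p ^ h) (multSeries F p))

theorem vv_eq0 (hn1 : 1 ≤ n) (hΓ : IsHonda p n Γ) (hF : IsUniversalDeformation p n Γ F)
    (hH : HeightAdapted p n F) (i : GaloisField p n →+* k) {h : ℕ} (hh : 1 ≤ h) (hlt : h < n) :
    ∃ e, IsUnit e ∧ vv i F h - e * X (embH n h hh hlt.le ⟨0, Nat.sub_pos_of_lt hlt⟩) ∈
      fibreIdeal n k h := by
  obtain ⟨A, hA⟩ := exists_famFG hn1 hΓ hF hH h hh hlt
  obtain ⟨e, he, h1⟩ := A.V_one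
  have hq : p ^ h ≠ 0 := pow_ne_zero _ (Fact.out : p.Prime).ne_zero
  refine ⟨rename (embH n h hh hlt.le) (MvPowerSeries.map i e), (he.map _).map _, ?_⟩
  rw [← kl_eq_zero hh hlt.le, map_sub, map_mul, killCompl_rename_app, killCompl_X, vv, kl_toFibre,
    ← PowerSeries.coeff_map, C0.map_multSeries, ← hA, A.series,
    ← PowerSeries.expand_apply (p ^ h) hq, PowerSeries.coeff_expand, if_pos dvd_rfl,
    Nat.div_self (Nat.pos_of_ne_zero hq), h1, map_mul, map_X, sub_self]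

theorem low_mem (hH : HeightAdapted p n F) {h : ℕ} (hh : 1 ≤ h) (hle : h ≤ n) {j : ℕ}
    (hj : j < p ^ h) : PowerSeries.coeff j (multSeries F p) ∈ heightIdeal p n h := by
  rw [hH h hh hle]
  exact Ideal.subset_span (Or.inr ⟨j, hj, rfl⟩)

theorem toFibre_mem (i : GaloisField p n →+* k) {h : ℕ} (hh : 1 ≤ h) {x : E0 p n}
    (hx : x ∈ heightIdeal p n h) : toFibre p n i x ∈ fibreIdeal n k h := by
  rw [← map_heightIdeal i hh]
  exact Ideal.mem_map_of_mem _ hx

theorem act_height (hH : HeightAdapted p n F) {h : ℕ} (hh : 1 ≤ h) (hle : h ≤ n)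
    {φ : RingAut (E0 p n)} (hφ : H260.ActIso F φ) :
    (heightIdeal p n h).map (φ : E0 p n →+* E0 p n) = heightIdeal p n h := by
  obtain ⟨g, hg⟩ := hφ
  have e0 : heightIdeal p n h = P217B7.hId p F h := hH h hh hle
  rw [e0, ← P217B7.hId_map, ← P217B7.hId_iso hg]

theorem act_mem (hH : HeightAdapted p n F) {h : ℕ} (hh : 1 ≤ h) (hle : h ≤ n)
    {i : GaloisField p n →+* k} {φ : RingAut (E0 p n)} (hφ : H260.ActIso F φ)
    {ψ : MvPowerSeries (Fin (n - 1)) k →ₐ[k] MvPowerSeries (Fin (n - 1)) k}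
    (e : Extends p n i φ ψ) {x : MvPowerSeries (Fin (n - 1)) k} (hx : x ∈ fibreIdeal n k h) :
    ψ x ∈ fibreIdeal n k h := by
  rw [← e.map_fibre hh (act_height hH hh hle hφ)]
  exact Ideal.mem_map_of_mem _ hx

theorem cocycle0 {F' : FormalGroup (E0 p n)} {h : ℕ} {g : PowerSeries (E0 p n)}
    (hg : IsIso F F' g) {S : Type} [CommRing S] [IsDomain S] (π : E0 p n →+* S)
    (h1 : ∀ j < p ^ h, π (PowerSeries.coeff j (multSeries F p)) = 0)
    (h2 : ∀ j < p ^ h, π (PowerSeries.coeff j (multSeries F' p)) = 0) :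
    π (PowerSeries.coeff (p ^ h) (multSeries F p)) =
      π (PowerSeries.coeff (p ^ h) (multSeries F' p)) *
        π (PowerSeries.coeff 1 g) ^ (p ^ h - 1) := by
  have h3 := (hg.1.mapC π).subst_multSeries p
  have a1 : PowerSeries.X ^ p ^ h ∣ multSeries (F.map π) p := by
    rw [PowerSeries.X_pow_dvd_iff]
    intro j hj
    rw [← C0.map_multSeries, PowerSeries.coeff_map, h1 j hj]
  have a2 : PowerSeries.X ^ p ^ h ∣ multSeries (F'.map π) p := by
    rw [PowerSeries.X_pow_dvd_iff]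
    intro j hj
    rw [← C0.map_multSeries, PowerSeries.coeff_map, h2 j hj]
  have a3 : PowerSeries.X ^ 1 ∣ g.map π := by
    rw [pow_one, PowerSeries.X_dvd_iff]
    exact C0.cc_map π hg.1.1
  have hq : 1 ≤ p ^ h := Nat.one_le_pow _ _ (Fact.out : p.Prime).pos
  have b1 := (lead_subst a3 a1 hq).2
  have b2 := (lead_subst a2 a3 le_rfl).2
  rw [one_mul, h3] at b1
  rw [mul_one, b1, pow_one, ← C0.map_multSeries, ← C0.map_multSeries] at b2
  simp only [PowerSeries.coeff_map] at b2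
  have ht : π (PowerSeries.coeff 1 g) ≠ 0 := (hg.2.map π).ne_zero
  apply mul_left_cancel₀ ht
  refine b2.trans ?_
  conv_lhs => rw [← Nat.sub_add_cancel hq, pow_succ]
  rw [Nat.sub_add_cancel hq]
  ring

theorem cocycle (hH : HeightAdapted p n F) {h : ℕ} (hh : 1 ≤ h) (hle : h ≤ n)
    {i : GaloisField p n →+* k} {φ : RingAut (E0 p n)} {g : PowerSeries (E0 p n)}
    (hg : IsIso F (F.map (φ : E0 p n →+* E0 p n)) g)
    {ψ : MvPowerSeries (Fin (n - 1)) k →ₐ[k] MvPowerSeries (Fin (n - 1)) k}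
    (e : Extends p n i φ ψ) {S : Type} [CommRing S] [IsDomain S]
    (ρ : MvPowerSeries (Fin (n - 1)) k →+* S) (hρ : ∀ x ∈ fibreIdeal n k h, ρ x = 0) :
    ρ (vv i F h) = ρ (ψ (vv i F h)) *
      ρ (toFibre p n i (PowerSeries.coeff 1 g)) ^ (p ^ h - 1) := by
  have h1 := cocycle0 (h := h) hg (ρ.comp (toFibre p n i))
    (fun j hj => hρ _ (toFibre_mem i hh (low_mem hH hh hle hj))) (fun j hj => by
      rw [← C0.map_multSeries, PowerSeries.coeff_map]
      refine hρ _ (toFibre_mem i hh ?_)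
      rw [← act_height hH hh hle ⟨g, hg⟩]
      exact Ideal.mem_map_of_mem _ (low_mem hH hh hle hj))
  rw [← C0.map_multSeries, PowerSeries.coeff_map] at h1
  rw [vv, e]
  exact h1

/-- the standing hypotheses. -/
structure Ok (Γ : FormalGroup (ZMod p)) (F : FormalGroup (E0 p n)) : Prop where
  hn : 1 ≤ n
  hc : Γ.IsComm
  hΓ : multSeries Γ p = PowerSeries.X ^ p ^ n
  hF : IsUniversalDeformation p n Γ F
  hH : HeightAdapted p n F

theorem actIso_iso {F' : FormalGroup (E0 p n)} {g : PowerSeries (E0 p n)} (e : IsIso F F' g)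
    {φ : RingAut (E0 p n)} (h : H260.ActIso F' φ) : H260.ActIso F φ := by
  obtain ⟨f, hf⟩ := h
  obtain ⟨g', hg', -, -⟩ := e.symmC
  exact ⟨_, P217B7.cj_iso e hf (hg'.mapC (φ : E0 p n →+* E0 p n))⟩

theorem Ok.honda (o : Ok Γ F) : ∃ H F' g, IsHonda p n H ∧ IsUniversalDeformation p n H F' ∧
    HeightAdapted p n F' ∧ IsIso F F' g := by
  obtain ⟨H, hH'⟩ := exists_isHonda (p := p) o.hn
  obtain ⟨v, hv, v1⟩ := (P217B7.iso_honda o.hn o.hc o.hΓ hH').1
  obtain ⟨F', g, h3, h4⟩ := P217B7.exists_univ_transport hv v1 o.hF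
  exact ⟨H, F', g, hH', h3, P217B7.adapted_transport h4 o.hH, h4⟩

theorem Ok.classify (o : Ok Γ F) (i : GaloisField p n →+* k)
    {J : Ideal (MvPowerSeries (Fin (n - 1)) k)} (hJ : Stab i F J) (hrad : J.IsRadical) :
    J = ⊤ ∨ ∃ h ≤ n, J = fibreIdeal n k h := by
  obtain ⟨H, F', g, h1, h2, h3, h4⟩ := o.honda
  exact N217.classify o.hn h1 h2 h3 i (fun φ ψ a b => hJ φ ψ (actIso_iso h4 a) b) hrad

theorem Ok.vv_eq (o : Ok Γ F) (i : GaloisField p n →+* k) {h : ℕ} (hh : 1 ≤ h) (hlt : h < n) :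
    ∃ e, IsUnit e ∧ vv i F h - e * X (embH n h hh hlt.le ⟨0, Nat.sub_pos_of_lt hlt⟩) ∈
      fibreIdeal n k h := by
  obtain ⟨H, F', g, h1, h2, h3, h4⟩ := o.honda
  obtain ⟨e, he, hv⟩ := vv_eq0 o.hn h1 h2 h3 i hh hlt
  have hdom : IsDomain (MvPowerSeries (Fin (n - h)) k) := NoZeroDivisors.to_isDomain _
  have h5 : kl n k h hh hlt.le (vv i F h) = kl n k h hh hlt.le (vv i F' h) *
      kl n k h hh hlt.le (toFibre p n i (PowerSeries.coeff 1 g)) ^ (p ^ h - 1) :=
    cocycle0 h4 ((kl n k h hh hlt.le : MvPowerSeries (Fin (n - 1)) k →+*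
      MvPowerSeries (Fin (n - h)) k).comp (toFibre p n i))
      (fun j hj => (kl_eq_zero hh hlt.le _).2 (toFibre_mem i hh (low_mem o.hH hh hlt.le hj)))
      (fun j hj => (kl_eq_zero hh hlt.le _).2 (toFibre_mem i hh (low_mem h3 hh hlt.le hj)))
  refine ⟨e * toFibre p n i (PowerSeries.coeff 1 g) ^ (p ^ h - 1),
    he.mul ((h4.2.map _).pow _), ?_⟩
  rw [← kl_eq_zero hh hlt.le, map_sub, sub_eq_zero] at hv ⊢
  rw [h5, hv, map_mul, map_mul, map_mul, map_pow]
  ring

/-- the last variable. -/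
def eL (hn : 2 ≤ n) : Unit ↪ Fin (n - 1) :=
  ⟨fun _ => ⟨n - 2, by omega⟩, fun _ _ _ => rfl⟩

theorem rho_zero (hn : 2 ≤ n) (f : MvPowerSeries (Fin (n - 1)) k) :
    killCompl (eL hn) f = 0 ↔ f ∈ fibreIdeal n k (n - 1) := by
  rw [ker_kill, fibreIdeal]
  congr! 7 with x j
  constructor
  · intro hj
    by_contra hlt
    refine hj ⟨(), Fin.ext ?_⟩
    have := j.2
    change n - 2 = _
    omega
  · rintro hj ⟨a, ha⟩
    have h1 : n - 2 = (j : ℕ) := congrArg Fin.val ha
    omega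

theorem cc_kill {σ τ : Type*} (e : σ ↪ τ) (f : MvPowerSeries τ k) :
    constantCoeff (killCompl e f) = constantCoeff f := by
  rw [← coeff_zero_eq_constantCoeff_apply, coeff_killCompl, Finsupp.embDomain_zero,
    coeff_zero_eq_constantCoeff_apply]

/-- no nonconstant invariant on the height `n - 1` stratum. -/
theorem last_stratum (hn : 2 ≤ n) (o : Ok Γ F) (i : GaloisField p n →+* k)
    (W : MvPowerSeries (Fin (n - 1)) k)
    {a : ℕ} (ha : a ≠ 0) (hW : PowerSeries.coeff a (killCompl (eL hn) W) ≠ 0)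
    (hinv : ∀ (φ : RingAut (E0 p n))
      (ψ : MvPowerSeries (Fin (n - 1)) k ≃ₐ[k] MvPowerSeries (Fin (n - 1)) k),
      H260.ActIso F φ → Extends p n i φ ψ → killCompl (eL hn) (ψ W) = killCompl (eL hn) W) :
    False := by
  have hF := o.hF
  have hH := o.hH
  have := hF.comm
  have := charP_of i
  have hp : p.Prime := Fact.out
  have hn1 : 1 ≤ n := by omega
  obtain ⟨e, he, hmov⟩ := moved p ha hW
  obtain ⟨φ, g, b0, hg, hφ, hgr⟩ := exists_close hF he
  set ρ : MvPowerSeries (Fin (n - 1)) k →ₐ[k] PowerSeries k := killCompl (eL hn) with hρ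
  set β : E0 p n →+* PowerSeries k :=
    (ρ : MvPowerSeries (Fin (n - 1)) k →+* PowerSeries k).comp (toFibre p n i) with hβ
  have hβc : ∀ x, PowerSeries.constantCoeff (β x) = i (red p n x) := fun x =>
    (cc_kill (eL hn) _).trans (cc_toFibre i x)
  have hred : ∀ x, red p n (φ x) = red p n x := by
    intro x
    have h1 : φ x - x ∈ IsLocalRing.maximalIdeal (E0 p n) :=
      sup_le ((Ideal.span_singleton_le_iff_mem _).2 C0.p_mem_maximalIdeal_E0)
        (Ideal.pow_le_self (by omega)) (hφ x)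
    rwa [← C0.ker_red, RingHom.mem_ker, map_sub, sub_eq_zero] at h1
  obtain ⟨ψ, hψ⟩ := exists_ext hn1 i φ hred
  have hρX : ρ (X (eL hn ())) = PowerSeries.X := killCompl_X ()
  have hx0 : constantCoeff (ρ (ψ (X (eL hn ())))) = 0 := (cc_kill _ _).trans (hψ.cc_X _)
  set ψ' : PowerSeries k →ₐ[k] PowerSeries k :=
    PowerSeries.substAlgHom (C0.hasSubst_of_cc hx0) with hψ'
  have hX' : ψ' PowerSeries.X = ρ (ψ (X (eL hn ()))) := PowerSeries.substAlgHom_X _
  have hcomm : ∀ y, ψ' (ρ y) = ρ (ψ y) := by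
    have h1 : (ψ' : PowerSeries k →+* PowerSeries k).comp
        (ρ : MvPowerSeries (Fin (n - 1)) k →+* PowerSeries k) =
        (ρ : MvPowerSeries (Fin (n - 1)) k →+* PowerSeries k).comp
          ((ψ : MvPowerSeries (Fin (n - 1)) k →ₐ[k] MvPowerSeries (Fin (n - 1)) k) :
            MvPowerSeries (Fin (n - 1)) k →+* MvPowerSeries (Fin (n - 1)) k) := by
      have hj : ∀ j, ψ' (ρ (X j)) = ρ (ψ (X j)) := by
        intro j
        by_cases hj : j = eL hn ()
        · rw [hj, hρX, hX']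
        · have h2 : X j ∈ fibreIdeal n k (n - 1) := by
            rw [← rho_zero hn]
            exact killCompl_X_eq_zero fun ⟨_, h⟩ => hj h.symm
          have h3 : ρ (X j) = 0 := (rho_zero hn _).2 h2
          rw [h3, map_zero]
          exact ((rho_zero hn _).2 (act_mem hH (by omega) (by omega) ⟨g, hg⟩ hψ h2)).symm
      refine bc_hom_ext (τ := Unit) (fun c => ?_) hj fun j => ?_
      · exact ((ψ'.comp ρ).commutes c).trans ((ρ.comp (ψ : MvPowerSeries (Fin (n - 1)) k →ₐ[k]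
          MvPowerSeries (Fin (n - 1)) k)).commutes c).symm
      · change constantCoeff (ψ' (ρ (X j))) = 0
        rw [hj]
        exact (cc_kill _ _).trans (hψ.cc_X _)
    exact RingHom.congr_fun h1
  have hdvd : PowerSeries.X ^ e ∣ ψ' PowerSeries.X - PowerSeries.X := by
    have h1 : ψ' PowerSeries.X - PowerSeries.X = β (φ (X (eL hn ())) - X (eL hn ())) := by
      rw [hX', map_sub β]
      change _ = ρ (toFibre p n i _) - ρ (toFibre p n i _)
      rw [← hψ, toFibre_X, hρX]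
      rfl
    have h2 : (Ideal.span {(p : E0 p n)} ⊔ IsLocalRing.maximalIdeal (E0 p n) ^ e).map β ≤
        Ideal.span {PowerSeries.X ^ e} := by
      rw [Ideal.map_sup, sup_le_iff, Ideal.map_pow, ← Ideal.span_singleton_pow]
      refine ⟨?_, Ideal.pow_right_mono ?_ e⟩
      · rw [Ideal.map_span, Set.image_singleton, Ideal.span_singleton_le_iff_mem]
        change ρ (toFibre p n i _) ∈ _
        rw [toFibre_p, map_zero]
        exact Ideal.zero_mem _
      · rw [Ideal.map_le_iff_le_comap]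
        intro x hx
        rw [← C0.ker_red, RingHom.mem_ker] at hx
        rw [Ideal.mem_comap, Ideal.mem_span_singleton, PowerSeries.X_dvd_iff, hβc, hx, map_zero]
    rw [h1, ← Ideal.mem_span_singleton]
    exact h2 (Ideal.mem_map_of_mem β (hφ _))
  have hfix := hmov ψ' hdvd ((hcomm W).trans (hinv φ ψ ⟨g, hg⟩ hψ))
  have hβφ : β.comp (φ : E0 p n →+* E0 p n) = β := by
    ext1 x
    change ρ (toFibre p n i (φ x)) = ρ (toFibre p n i x)
    rw [← hψ]
    refine (hcomm _).symm.trans ?_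
    rw [hψ', PowerSeries.coe_substAlgHom, ← hX', hfix, PowerSeries.X_subst]
  have hgβ := hg.1.mapC β
  rw [C0.FG_map_map, hβφ] at hgβ
  have hc : (PowerSeries.constantCoeff : PowerSeries k →+* k).comp β = i.comp (red p n) :=
    RingHom.ext hβc
  have hP : multSeries ((F.map β).map PowerSeries.constantCoeff) p = PowerSeries.X ^ p ^ n := by
    rw [C0.FG_map_map, hc, ← C0.FG_map_map, hF.reduction, ← C0.map_multSeries,
      ← C0.map_multSeries, o.hΓ, map_pow, map_pow, PowerSeries.map_X, PowerSeries.map_X]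
  obtain ⟨u, hu, hv⟩ := o.vv_eq i (h := n - 1) (by omega) (by omega)
  refine no_lift hn hF hβc (by rw [C0.map_multSeries, hP]) ?_ ?_
    (hom_sub (z := C0.pt _ _ hgβ.1) (w := C0.ptX _ ()) hgβ C0.isHom_X) (e := e) ?_
  · rw [PowerSeries.X_pow_dvd_iff]
    intro j hj
    rw [← C0.map_multSeries, PowerSeries.coeff_map]
    exact (rho_zero hn _).2 (toFibre_mem i (by omega) (low_mem hH (by omega) (by omega) hj))
  · rw [← C0.map_multSeries, PowerSeries.coeff_map]
    have h1 : ρ _ = 0 := (rho_zero hn _).2 hv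
    have h2 : embH n (n - 1) (by omega) (by omega) ⟨0, by omega⟩ = eL hn () :=
      Fin.ext (by rw [val_embH]; change 0 + (n - 1 - 1) = n - 2; omega)
    rw [map_sub, map_mul, h2, hρX, sub_eq_zero] at h1
    change ρ (vv i F (n - 1)) ≠ 0
    rw [h1]
    exact mul_ne_zero (hu.map ρ).ne_zero PowerSeries.X_ne_zero
  · have h1 : C0.mapPt PowerSeries.constantCoeff (C0.pt (F.map β) _ hgβ.1) =
        C0.mapPt PowerSeries.constantCoeff (C0.mapPt β
          (C0.ptX F () + p ^ e • C0.pt F _ b0)) := by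
      apply Subtype.ext
      change PowerSeries.map _ (PowerSeries.map β g) =
        PowerSeries.map _ (PowerSeries.map β (C0.bser F _ b0 e))
      rw [C0.ps_map_comp, C0.ps_map_comp, hc, ← C0.ps_map_comp, ← C0.ps_map_comp, hgr]
    have h2 : C0.mapPt β (C0.ptX F ()) = C0.ptX (F.map β) () :=
      Subtype.ext (PowerSeries.map_X β)
    change (C0.mapPt PowerSeries.constantCoeff (C0.pt (F.map β) _ hgβ.1 - C0.ptX _ ())).val = _
    rw [map_sub, h1, map_add, h2, map_add, add_sub_cancel_left, map_nsmul, map_nsmul,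
      pow_nsmul_val hP]
    change (PowerSeries.map _ (PowerSeries.map β (PowerSeries.X ^ p))) ^ _ = _
    rw [map_pow, map_pow, PowerSeries.map_X, PowerSeries.map_X, ← pow_mul, ← pow_mul, pow_succ']

theorem unit_weight (o : Ok Γ F) (i : GaloisField p n →+* k) {h : ℕ} (hh : 1 ≤ h) (hlt : h < n)
    {E : MvPowerSeries (Fin (n - 1)) k} (hEu : IsUnit E) {a : ℕ} (ha : a ≠ 0)
    (hinv : ∀ (φ : RingAut (E0 p n)) (g : PowerSeries (E0 p n))
      (ψ : MvPowerSeries (Fin (n - 1)) k ≃ₐ[k] MvPowerSeries (Fin (n - 1)) k),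
      IsIso F (F.map (φ : E0 p n →+* E0 p n)) g → Extends p n i φ ψ →
        ψ E - E * toFibre p n i (PowerSeries.coeff 1 g) ^ a ∈ fibreIdeal n k h) : False := by
  have hn : 2 ≤ n := by omega
  obtain ⟨u', hu', hv'⟩ := o.vv_eq i (h := n - 1) (by omega) (by omega)
  set ρ : MvPowerSeries (Fin (n - 1)) k →ₐ[k] PowerSeries k := killCompl (eL hn) with hρ
  have hρ0 : ∀ x ∈ fibreIdeal n k (n - 1), ρ x = 0 := fun x hx => (rho_zero hn x).2 hx
  refine last_stratum hn o i (E ^ (p ^ (n - 1) - 1) * vv i F (n - 1) ^ a) ha ?_ ?_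
  · have h2 := hρ0 _ hv'
    have h3 : embH n (n - 1) (by omega) (by omega) ⟨0, by omega⟩ = eL hn () :=
      Fin.ext (by rw [val_embH]; change 0 + (n - 1 - 1) = n - 2; omega)
    have hρX : ρ (X (eL hn ())) = PowerSeries.X := killCompl_X ()
    rw [map_sub, map_mul, h3, hρX, sub_eq_zero] at h2
    change PowerSeries.coeff _ (ρ _) ≠ 0
    rw [map_mul, map_pow, map_pow, h2, mul_pow, ← mul_assoc]
    have h4 := PowerSeries.coeff_mul_X_pow (ρ E ^ (p ^ (n - 1) - 1) * ρ u' ^ a) a 0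
    rw [zero_add] at h4
    rw [h4, PowerSeries.coeff_zero_eq_constantCoeff_apply]
    exact (PowerSeries.isUnit_iff_constantCoeff.1
      (((hEu.map ρ).pow _).mul ((hu'.map ρ).pow _))).ne_zero
  · rintro φ ψ ⟨g, hg⟩ h2
    have c2 : ρ (vv i F (n - 1)) = ρ (ψ (vv i F (n - 1))) *
        ρ (toFibre p n i (PowerSeries.coeff 1 g)) ^ (p ^ (n - 1) - 1) :=
      cocycle o.hH (by omega) (by omega) hg h2 (ρ : MvPowerSeries (Fin (n - 1)) k →+*
        PowerSeries k) hρ0
    have c5 := hρ0 _ (fibre_mono (by omega) (hinv φ g ψ hg h2))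
    rw [map_sub, map_mul, map_pow, sub_eq_zero] at c5
    change ρ _ = ρ _
    simp only [map_mul, map_pow]
    rw [c5]
    conv_rhs => rw [c2]
    ring

theorem kl_vv (o : Ok Γ F) (i : GaloisField p n →+* k) {h : ℕ} (hh : 1 ≤ h) (hlt : h < n) :
    Associated (kl n k h hh hlt.le (vv i F h)) (X ⟨0, Nat.sub_pos_of_lt hlt⟩) := by
  obtain ⟨u, hu, hv⟩ := o.vv_eq i hh hlt
  rw [← kl_eq_zero hh hlt.le, map_sub, map_mul, killCompl_X, sub_eq_zero] at hv
  rw [hv]
  exact associated_unit_mul_left _ _ (hu.map _)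

theorem shape (o : Ok Γ F) (i : GaloisField p n →+* k) {h : ℕ} (hh : 1 ≤ h) (hlt : h < n)
    {f : MvPowerSeries (Fin (n - 1)) k} (hf : f ∉ fibreIdeal n k h)
    (hinv : ∀ (φ : RingAut (E0 p n))
      (ψ : MvPowerSeries (Fin (n - 1)) k ≃ₐ[k] MvPowerSeries (Fin (n - 1)) k),
      H260.ActIso F φ → Extends p n i φ ψ → ∃ c, ψ f - c * f ∈ fibreIdeal n k h) :
    ∃ j E, IsUnit E ∧ f - vv i F h ^ j * E ∈ fibreIdeal n k h := by
  have hle := hlt.le
  set J := fibreIdeal n k h ⊔ Ideal.span {f} with hJ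
  have hfJ : f ∈ J := Ideal.mem_sup_right (Ideal.subset_span rfl)
  have hst : Stab i F J.radical := by
    rintro φ ψ h1 h2 x ⟨m, hm⟩
    refine ⟨m, ?_⟩
    obtain ⟨a, ha, b, hb, hab⟩ := Submodule.mem_sup.1 hm
    obtain ⟨c, rfl⟩ := Ideal.mem_span_singleton'.1 hb
    rw [← map_pow, ← hab, map_add, map_mul]
    refine J.add_mem (Ideal.mem_sup_left (act_mem o.hH hh hle h1 h2 ha)) (J.mul_mem_left _ ?_)
    obtain ⟨c', hc'⟩ := hinv φ ψ h1 h2
    have h3 := J.add_mem (Ideal.mem_sup_left hc') (J.mul_mem_left c' hfJ)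
    rwa [sub_add_cancel] at h3
  set i0 : Fin (n - h) := ⟨0, Nat.sub_pos_of_lt hlt⟩ with hi0
  obtain ⟨m, hm⟩ : X (embH n h hh hle i0) ∈ J.radical := by
    rcases o.classify i hst (Ideal.radical_isRadical J) with h1 | ⟨h', hh', h1⟩
    · rw [h1]
      exact Submodule.mem_top
    have hlt' : h < h' := by
      by_contra h2
      exact hf (fibre_mono (not_lt.1 h2) (h1 ▸ Ideal.le_radical hfJ))
    rw [h1]
    exact Ideal.subset_span ⟨_, by rw [val_embH]; change 0 + (h - 1) + 1 < h'; omega, rfl⟩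
  have hdom : IsDomain (MvPowerSeries (Fin (n - h)) k) := NoZeroDivisors.to_isDomain _
  set κ := kl n k h hh hle with hκ
  have hdv : κ f ∣ X i0 ^ m := by
    obtain ⟨a, ha, b, hb, hab⟩ := Submodule.mem_sup.1 hm
    obtain ⟨c, rfl⟩ := Ideal.mem_span_singleton'.1 hb
    have h2 := congrArg κ hab
    rw [map_add, (kl_eq_zero hh hle a).2 ha, zero_add, map_mul, map_pow, killCompl_X] at h2
    exact ⟨κ c, by rw [← h2, mul_comm]⟩
  obtain ⟨j, -, hj⟩ := (dvd_prime_pow (prime_X i0) m).1 hdv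
  obtain ⟨η, hη⟩ : Associated (κ (vv i F h) ^ j) (κ f) :=
    Associated.trans (Associated.pow_pow (kl_vv o i hh hlt)) hj.symm
  refine ⟨j, rename (embH n h hh hle) η.val, η.isUnit.map _, ?_⟩
  rw [← kl_eq_zero hh hle, map_sub, map_mul, map_pow, killCompl_rename_app, hη, sub_self]

theorem weight_unit (o : Ok Γ F) {i : GaloisField p n →+* k} {h : ℕ} (hh : 1 ≤ h) (hlt : h < n)
    {f E : MvPowerSeries (Fin (n - 1)) k} {j : ℕ} (hfE : f - vv i F h ^ j * E ∈ fibreIdeal n k h)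
    {φ : RingAut (E0 p n)} {g : PowerSeries (E0 p n)}
    {ψ : MvPowerSeries (Fin (n - 1)) k ≃ₐ[k] MvPowerSeries (Fin (n - 1)) k}
    (hg : IsIso F (F.map (φ : E0 p n →+* E0 p n)) g) (h2 : Extends p n i φ ψ) {a b : ℕ}
    (hw : ψ f * toFibre p n i (PowerSeries.coeff 1 g) ^ a -
      f * toFibre p n i (PowerSeries.coeff 1 g) ^ b ∈ fibreIdeal n k h) :
    ψ E * toFibre p n i (PowerSeries.coeff 1 g) ^ a -
      E * toFibre p n i (PowerSeries.coeff 1 g) ^ (b + (p ^ h - 1) * j) ∈ fibreIdeal n k h := by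
  have hle := hlt.le
  have hdom : IsDomain (MvPowerSeries (Fin (n - h)) k) := NoZeroDivisors.to_isDomain _
  set κ := kl n k h hh hle with hκ
  have hk0 : ∀ x ∈ fibreIdeal n k h, κ x = 0 := fun x hx => (kl_eq_zero hh hle x).2 hx
  set t := toFibre p n i (PowerSeries.coeff 1 g) with ht
  have hV0 : κ (vv i F h) ≠ 0 := (kl_vv o i hh hlt).ne_zero_iff.2 (prime_X _).ne_zero
  have c1 : κ (vv i F h) = κ (ψ (vv i F h)) * κ t ^ (p ^ h - 1) :=
    cocycle o.hH hh hle hg h2 (κ : MvPowerSeries (Fin (n - 1)) k →+*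
      MvPowerSeries (Fin (n - h)) k) hk0
  have d1 : κ (ψ (f - vv i F h ^ j * E)) = 0 := hk0 _ (act_mem o.hH hh hle ⟨g, hg⟩ h2 hfE)
  have d2 := hk0 _ hw
  have d3 := hk0 _ hfE
  simp only [map_sub, map_mul, map_pow] at d1 d2 d3
  rw [c1, mul_pow, ← pow_mul] at d3
  have d0 : κ (ψ (vv i F h)) ≠ 0 := fun h3 => hV0 (by rw [c1, h3, zero_mul])
  rw [← kl_eq_zero hh hle]
  apply mul_left_cancel₀ (pow_ne_zero j d0)
  change _ * κ _ = _
  simp only [map_sub, map_mul, map_pow]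
  linear_combination d2 - κ t ^ a * d1 + κ t ^ b * d3

theorem invariant_full (o : Ok Γ F) (i : GaloisField p n →+* k) {h : ℕ} (hh : 1 ≤ h)
    (hle : h ≤ n) {f : MvPowerSeries (Fin (n - 1)) k} (h0 : constantCoeff f = 0)
    (hinv : ∀ (φ : RingAut (E0 p n))
      (ψ : MvPowerSeries (Fin (n - 1)) k ≃ₐ[k] MvPowerSeries (Fin (n - 1)) k),
      H260.ActIso F φ → Extends p n i φ ψ → ψ f - f ∈ fibreIdeal n k h) :
    f ∈ fibreIdeal n k h := by
  have hp : p.Prime := Fact.out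
  rcases hle.eq_or_lt with rfl | hlt
  · exact (mem_fibre_top o.hn).2 h0
  by_contra hf
  obtain ⟨j, E, hEu, hfE⟩ := shape o i hh hlt hf fun φ ψ a b =>
    ⟨1, by rw [one_mul]; exact hinv φ ψ a b⟩
  have hj0 : j ≠ 0 := by
    rintro rfl
    have h1 := (mem_fibre_top o.hn).1 (fibre_mono hle hfE)
    rw [pow_zero, one_mul, map_sub, h0, zero_sub, neg_eq_zero] at h1
    exact (isUnit_iff_constantCoeff.1 hEu).ne_zero h1
  have hq : 1 < p ^ h := Nat.one_lt_pow (by omega) hp.one_lt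
  refine unit_weight o i hh hlt hEu (a := (p ^ h - 1) * j) (mul_ne_zero (by omega) hj0) ?_
  intro φ g ψ hg h2
  have h3 := weight_unit o hh hlt hfE hg h2 (a := 0) (b := 0)
    (by simpa using hinv φ ψ ⟨g, hg⟩ h2)
  simpa using h3

theorem graded (o : Ok Γ F) (i : GaloisField p n →+* k) {h : ℕ} (hh : 1 ≤ h) (hlt : h < n)
    {f : MvPowerSeries (Fin (n - 1)) k} (hf : f ∉ fibreIdeal n k h) {a b : ℕ}
    (hinv : ∀ (φ : RingAut (E0 p n)) (g : PowerSeries (E0 p n))
      (ψ : MvPowerSeries (Fin (n - 1)) k ≃ₐ[k] MvPowerSeries (Fin (n - 1)) k),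
      IsIso F (F.map (φ : E0 p n →+* E0 p n)) g → Extends p n i φ ψ →
        ψ f * toFibre p n i (PowerSeries.coeff 1 g) ^ a -
          f * toFibre p n i (PowerSeries.coeff 1 g) ^ b ∈ fibreIdeal n k h) :
    ∃ (j : ℕ) (c : k), a = b + (p ^ h - 1) * j ∧ f - C c * vv i F h ^ j ∈ fibreIdeal n k h := by
  have hle := hlt.le
  have hcan : ∀ {t x : MvPowerSeries (Fin (n - 1)) k}, IsUnit t → t * x ∈ fibreIdeal n k h →
      x ∈ fibreIdeal n k h := fun ht hx => (Ideal.unit_mul_mem_iff_mem _ ht).1 hx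
  obtain ⟨j, E, hEu, hfE⟩ := shape o i hh hlt hf (by
    rintro φ ψ ⟨g, hg⟩ h2
    obtain ⟨t, ht⟩ := (hg.2.map (toFibre p n i)).pow a
    refine ⟨toFibre p n i (PowerSeries.coeff 1 g) ^ b * t⁻¹.val, hcan t.isUnit ?_⟩
    have h3 := hinv φ g ψ hg h2
    rw [← ht] at h3
    convert h3 using 1
    linear_combination (-(toFibre p n i (PowerSeries.coeff 1 g) ^ b * f)) * t.mul_inv)
  have hw := fun φ g ψ hg h2 => weight_unit o hh hlt hfE hg h2 (hinv φ g ψ hg h2)
  have hab : a = b + (p ^ h - 1) * j := by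
    rcases lt_trichotomy a (b + (p ^ h - 1) * j) with h1 | h1 | h1
    · obtain ⟨d, hd⟩ := Nat.exists_eq_add_of_lt h1
      refine (unit_weight o i hh hlt hEu (a := d + 1) (by omega) fun φ g ψ hg h2 =>
        hcan ((hg.2.map (toFibre p n i)).pow a) ?_).elim
      have h3 := hw φ g ψ hg h2
      rw [hd] at h3
      convert h3 using 1
      ring
    · exact h1
    · obtain ⟨d, hd⟩ := Nat.exists_eq_add_of_lt h1
      obtain ⟨E, rfl⟩ := hEu
      refine (unit_weight o i hh hlt E⁻¹.isUnit (a := d + 1) (by omega) fun φ g ψ hg h2 =>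
        hcan ((((hg.2.map (toFibre p n i)).pow (b + (p ^ h - 1) * j)).mul E.isUnit).mul
          (E.isUnit.map ψ)) ?_).elim
      have h3 := (fibreIdeal n k h).neg_mem (hw φ g ψ hg h2)
      have h4 : ψ E.val * ψ E⁻¹.val = 1 := by rw [← map_mul, E.mul_inv, map_one]
      rw [hd] at h3
      convert h3 using 1
      set t := toFibre p n i (PowerSeries.coeff 1 g)
      linear_combination (t ^ (b + (p ^ h - 1) * j) * E.val) * h4 -
        (t ^ (b + (p ^ h - 1) * j + d + 1) * ψ E.val) * E.mul_inv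
  refine ⟨j, constantCoeff E, hab, ?_⟩
  have h5 : E - C (constantCoeff E) ∈ fibreIdeal n k h := by
    refine invariant_full o i hh hle (by simp) ?_
    rintro φ ψ ⟨g, hg⟩ h2
    have h3 : ψ (C (constantCoeff E)) = C (constantCoeff E) := ψ.commutes _
    rw [map_sub, h3, sub_sub_sub_cancel_right]
    refine hcan ((hg.2.map (toFibre p n i)).pow a) ?_
    have h4 := hw φ g ψ hg h2
    rw [← hab] at h4
    convert h4 using 1
    ring
  have h6 := Ideal.add_mem _ hfE (Ideal.mul_mem_left _ (vv i F h ^ j) h5)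
  convert h6 using 1
  ring

end Vale.Agent.N217
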