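import Vale.Agent.N217.Inv

/-!
# P217: finite index subgroups acting on the closed fibre over an arbitrary field
-/

namespace Vale.Agent.N217

open MvPowerSeries Vale.Agent.P217 Pointwise

variable {p n : ℕ} [Fact p.Prime] {k : Type} [Field k] {Γ : FormalGroup (ZMod p)}
  {F : FormalGroup (E0 p n)}

/-- the `k`-linear extensions of the elements of `U`. -/
def extGroup (i : GaloisField p n →+* k) (U : Subgroup (RingAut (E0 p n))) :
    Subgroup (MvPowerSeries (Fin (n - 1)) k ≃ₐ[k] MvPowerSeries (Fin (n - 1)) k) where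
  carrier := {ψ | ∃ φ ∈ U, Extends p n i φ ψ}
  one_mem' := ⟨1, U.one_mem, fun _ => rfl⟩
  mul_mem' := by
    rintro ψ ψ' ⟨φ, h1, h2⟩ ⟨φ', h3, h4⟩
    refine ⟨φ * φ', U.mul_mem h1 h3, fun x => ?_⟩
    exact (congrArg ψ (h4 x)).trans (h2 _)
  inv_mem' := by
    rintro ψ ⟨φ, h1, h2⟩
    refine ⟨φ⁻¹, U.inv_mem h1, fun x => ?_⟩
    change ψ.symm _ = _
    rw [AlgEquiv.symm_apply_eq]
    exact ((h2 _).trans (congrArg _ (φ.apply_symm_apply x))).symm

theorem ext_index (i : GaloisField p n →+* k) {U A : Subgroup (RingAut (E0 p n))}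
    (hfin : U.relIndex A ≠ 0) : ((extGroup i U).subgroupOf (extGroup i A)).FiniteIndex := by
  have hq : Finite (A ⧸ U.subgroupOf A) := Subgroup.index_ne_zero_iff_finite.1 hfin
  have hex : ∀ ψ : extGroup i A, ∃ φ ∈ A, Extends p n i φ ψ.1 := fun ψ => ψ.2
  choose φ h1 h2 using hex
  let f : extGroup i A → A ⧸ U.subgroupOf A := fun ψ => QuotientGroup.mk ⟨φ ψ, h1 ψ⟩
  have key : ∀ ψ ψ', f ψ = f ψ' → (QuotientGroup.mk ψ :
      extGroup i A ⧸ (extGroup i U).subgroupOf (extGroup i A)) = QuotientGroup.mk ψ' := by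
    intro ψ ψ' h
    rw [QuotientGroup.eq] at h ⊢
    refine ⟨(φ ψ)⁻¹ * φ ψ', h, fun x => ?_⟩
    change ψ.1.symm (ψ'.1 _) = _
    rw [AlgEquiv.symm_apply_eq]
    exact (h2 ψ' x).trans ((h2 ψ _).trans (congrArg _ ((φ ψ).apply_symm_apply _))).symm
  have hinj : Function.Injective
      (fun q : extGroup i A ⧸ (extGroup i U).subgroupOf (extGroup i A) => f q.out) := by
    intro q q' h
    have := key _ _ h
    rwa [QuotientGroup.out_eq', QuotientGroup.out_eq'] at this
  have := Finite.of_injective _ hinj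
  exact ⟨Subgroup.index_ne_zero_of_finite⟩

theorem smul_ext
    (G : Subgroup (MvPowerSeries (Fin (n - 1)) k ≃ₐ[k] MvPowerSeries (Fin (n - 1)) k))
    (ψ : MvPowerSeries (Fin (n - 1)) k ≃ₐ[k] MvPowerSeries (Fin (n - 1)) k) (h : ψ ∈ G)
    (J : Ideal (MvPowerSeries (Fin (n - 1)) k)) : (⟨ψ, h⟩ : G) • J =
      J.map (ψ : MvPowerSeries (Fin (n - 1)) k →ₐ[k] MvPowerSeries (Fin (n - 1)) k) := rfl

theorem mem_act (hF : IsUniversalDeformation p n Γ F) (φ : RingAut (E0 p n)) :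
    φ ∈ LT.actionGroup p n Γ F ↔ H260.ActIso F φ :=
  (H260.mem_actionGroup hF φ).trans (H260.acts_iff_actIso hF φ)

theorem chainK (o : Ok Γ F) (i : GaloisField p n →+* k) :
    H260.Chain (extGroup i (LT.actionGroup p n Γ F)) n (fibreIdeal n k) := by
  have hn := o.hn
  have hF := o.hF
  have hH := o.hH
  have hinv : ∀ h, 1 ≤ h → h ≤ n → ∀ g : extGroup i (LT.actionGroup p n Γ F),
      g • fibreIdeal n k h = fibreIdeal n k h := by
    rintro h h1 h2 ⟨ψ, φ, a, b⟩
    exact b.map_fibre h1 (act_height hH h1 h2 ((mem_act hF φ).1 a))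
  refine ⟨fun J h1 h2 => ?_, fun h hh => ?_, fun h hh => ?_, fun h h' hle _ => fibre_mono hle⟩
  · refine o.classify i ?_ h1
    intro φ ψ a b x hx
    rw [← h2 ⟨ψ, φ, (mem_act hF φ).2 a, b⟩]
    exact Ideal.smul_mem_pointwise_smul _ _ _ hx
  · rcases Nat.eq_zero_or_pos h with rfl | h0
    · rw [fibre_zero]
      exact fibre_prime le_rfl hn
    · exact fibre_prime h0 hh
  · rcases Nat.eq_zero_or_pos h with rfl | h0
    · rw [fibre_zero]
      exact hinv 1 le_rfl hn
    · exact hinv h h0 hh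

theorem invK (o : Ok Γ F) (i : GaloisField p n →+* k) {U : Subgroup (RingAut (E0 p n))}
    (hfin : U.relIndex (LT.actionGroup p n Γ F) ≠ 0) {h : ℕ} (hh : 1 ≤ h) (hle : h ≤ n)
    {f : MvPowerSeries (Fin (n - 1)) k} (h0 : constantCoeff f = 0)
    (hf : ∀ ψ ∈ extGroup i U, ψ f - f ∈ fibreIdeal n k h) : f ∈ fibreIdeal n k h := by
  classical
  have hF := o.hF
  have hH := o.hH
  set G := extGroup i (LT.actionGroup p n Γ F) with hG
  set V := (extGroup i U).subgroupOf G with hV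
  have hVf : V.FiniteIndex := ext_index i hfin
  have := Fintype.ofFinite (G ⧸ V)
  have hpres : ∀ g : G, ∀ x ∈ fibreIdeal n k h, g.1 x ∈ fibreIdeal n k h := by
    rintro ⟨ψ, φ, a, b⟩ x hx
    exact act_mem hH hh hle ((mem_act hF φ).1 a) b hx
  set κ := kl n k h hh hle with hκ
  have hc : ∀ g : G, κ ((QuotientGroup.mk g : G ⧸ V).out.1 f) = κ (g.1 f) := by
    intro g
    obtain ⟨u, hu⟩ := QuotientGroup.mk_out_eq_mul V g
    rw [hu, ← sub_eq_zero, ← map_sub, kl_eq_zero]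
    have h5 := hpres g _ (hf _ (Subgroup.mem_subgroupOf.1 u.2))
    rwa [map_sub] at h5
  have hN : ∏ q : G ⧸ V, q.out.1 f ∈ fibreIdeal n k h := by
    refine invariant_full o i hh hle ?_ ?_
    · rw [map_prod]
      refine Finset.prod_eq_zero (Finset.mem_univ (QuotientGroup.mk 1)) ?_
      obtain ⟨φ, -, b⟩ := (QuotientGroup.mk 1 : G ⧸ V).out.2
      exact (b.cc f).trans h0
    · intro φ ψ a b
      set g : G := ⟨ψ, φ, (mem_act hF φ).2 a, b⟩ with hg
      rw [← kl_eq_zero hh hle, map_sub, sub_eq_zero, map_prod, map_prod, map_prod,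
        ← Equiv.prod_comp (MulAction.toPerm g) fun q : G ⧸ V => κ (q.out.1 f)]
      refine Finset.prod_congr rfl fun q _ => ?_
      have h5 := hc (g * q.out)
      have h6 : (QuotientGroup.mk (g * q.out) : G ⧸ V) = g • q := by
        conv_rhs => rw [← q.out_eq']
        rfl
      rw [h6] at h5
      exact h5.symm
  have hP := fibre_prime (k := k) hh hle
  obtain ⟨q, -, hq⟩ := Ideal.IsPrime.prod_mem_iff.1 hN
  have h7 := hpres q.out⁻¹ _ hq
  change q.out.1.symm (q.out.1 f) ∈ _ at h7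
  rwa [AlgEquiv.symm_apply_apply] at h7

theorem geo (o : Ok Γ F) (i : GaloisField p n →+* k) (U : Subgroup (RingAut (E0 p n)))
    (hU : U ≤ LT.actionGroup p n Γ F) (hfin : U.relIndex (LT.actionGroup p n Γ F) ≠ 0) :
    (∀ J : Ideal (MvPowerSeries (Fin (n - 1)) k),
      ((J.IsPrime ∧ ∀ φ ∈ U, ∀ ψ, Extends p n i φ ψ → J.map ψ = J) ↔
        ∃ h, 1 ≤ h ∧ h ≤ n ∧ J = fibreIdeal n k h) ∧
      ((J.IsRadical ∧ ∀ φ ∈ U, ∀ ψ, Extends p n i φ ψ → J.map ψ = J) ↔
        (J = ⊤ ∨ ∃ h, 1 ≤ h ∧ h ≤ n ∧ J = fibreIdeal n k h))) ∧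
    ∀ h, 1 ≤ h → h ≤ n → ∀ f : MvPowerSeries (Fin (n - 1)) k,
      (∀ φ ∈ U, ∀ ψ, Extends p n i φ ψ → ψ f - f ∈ fibreIdeal n k h) ↔
        ∃ c : k, f - C c ∈ fibreIdeal n k h := by
  have hn := o.hn
  have hF := o.hF
  have hH := o.hH
  have hC := chainK o i
  have hVf := ext_index i hfin
  have hinv : ∀ h, 1 ≤ h → h ≤ n → ∀ φ ∈ U, ∀ ψ, Extends p n i φ ψ →
      (fibreIdeal n k h).map ψ = fibreIdeal n k h := fun h h1 h2 φ a ψ b =>
    b.map_fibre h1 (act_height hH h1 h2 ((mem_act hF φ).1 (hU a)))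
  have hst : ∀ J : Ideal (MvPowerSeries (Fin (n - 1)) k),
      (∀ φ ∈ U, ∀ ψ, Extends p n i φ ψ → J.map ψ = J) →
      ∀ u ∈ (extGroup i U).subgroupOf (extGroup i (LT.actionGroup p n Γ F)), u • J = J := by
    rintro J hJ ⟨ψ, hψ⟩ hu
    obtain ⟨φ, a, b⟩ : ψ ∈ extGroup i U := hu
    exact (smul_ext _ ψ hψ J).trans (hJ φ a _ b)
  have hfix : ∀ J : Ideal (MvPowerSeries (Fin (n - 1)) k), (∃ h ≤ n, J = fibreIdeal n k h) →
      ∃ h, 1 ≤ h ∧ h ≤ n ∧ J = fibreIdeal n k h := by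
    rintro J ⟨h, hh, rfl⟩
    rcases Nat.eq_zero_or_pos h with rfl | h0
    · exact ⟨1, le_rfl, hn, fibre_zero⟩
    · exact ⟨h, h0, hh, rfl⟩
  refine ⟨fun J => ⟨⟨?_, ?_⟩, ⟨?_, ?_⟩⟩, fun h h1 h2 f => ⟨fun hf => ?_, ?_⟩⟩
  · rintro ⟨h1, h2⟩
    exact hfix J (hC.prime_of _ h1 (hst J h2))
  · rintro ⟨h, h1, h2, rfl⟩
    exact ⟨fibre_prime h1 h2, hinv h h1 h2⟩
  · rintro ⟨h1, h2⟩
    exact (hC.radical_of _ h1 (hst J h2)).imp id (hfix J)
  · rintro (rfl | ⟨h, h1, h2, rfl⟩)
    · exact ⟨fun _ _ => Submodule.mem_top, fun _ _ ψ _ => Ideal.map_top ψ⟩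
    · exact ⟨(fibre_prime h1 h2).isRadical, hinv h h1 h2⟩
  · refine ⟨constantCoeff f, invK o i hfin h1 h2 (by simp) ?_⟩
    rintro ψ ⟨φ, a, b⟩
    have h3 : ψ (C (constantCoeff f)) = C (constantCoeff f) := ψ.commutes _
    rw [map_sub, h3, sub_sub_sub_cancel_right]
    exact hf φ a _ b
  · rintro ⟨c, hc⟩ φ a ψ b
    have h3 : ψ (C c) = C c := ψ.commutes _
    have h4 := act_mem hH h1 h2 ((mem_act hF φ).1 (hU a)) b hc
    rw [map_sub, h3] at h4
    have h5 := Ideal.sub_mem _ h4 hc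
    rwa [sub_sub_sub_cancel_right] at h5

theorem Extends.red {i : GaloisField p n →+* k} {φ : RingAut (E0 p n)}
    {ψ : MvPowerSeries (Fin (n - 1)) k →ₐ[k] MvPowerSeries (Fin (n - 1)) k}
    (e : Extends p n i φ ψ) (x : E0 p n) : red p n (φ x) = red p n x := by
  apply i.injective
  rw [← cc_toFibre, ← e, e.cc, cc_toFibre]

theorem lin_inv {R : Type*} [CommRing R] {g g' : PowerSeries R}
    (h0 : PowerSeries.constantCoeff g = 0)
    (h : (PowerSeries.subst g g' : PowerSeries R) = PowerSeries.X) :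
    PowerSeries.coeff 1 g * PowerSeries.coeff 1 g' = 1 := by
  rw [← C0.coeff_one_subst h0, h, PowerSeries.coeff_one_X]

theorem gradedK (o : Ok Γ F) (i : GaloisField p n →+* k) {h : ℕ} (hh : 1 ≤ h) (hlt : h < n)
    (a b : ℕ) (f : MvPowerSeries (Fin (n - 1)) k) :
    (∀ γ (φ : RingAut (E0 p n)) g ψ,
      LT.Lifts (red p n) (red p n) (RingHom.id _) γ F F (φ : E0 p n →+* E0 p n) g →
      Extends p n i φ ψ → ψ f * toFibre p n i (PowerSeries.coeff 1 g) ^ a -
        f * toFibre p n i (PowerSeries.coeff 1 g) ^ b ∈ fibreIdeal n k h) ↔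
    (f ∈ fibreIdeal n k h ∨ ∃ (j : ℕ) (c : k), b = a + (p ^ h - 1) * j ∧
      f - C c * vv i F h ^ j ∈ fibreIdeal n k h) := by
  have hle := hlt.le
  constructor
  · intro H
    by_cases hf : f ∈ fibreIdeal n k h
    · exact Or.inl hf
    refine Or.inr (graded o i hh hlt hf fun φ g ψ hg e => ?_)
    obtain ⟨g', hg', k1, -⟩ := hg.symmC
    have h1 := H _ φ g' ψ ⟨RingHom.ext e.red, LTC.isIso_iff.2 hg', rfl⟩ e
    have h2 := congrArg (toFibre p n i) (lin_inv hg.1.1 k1)
    rw [map_mul, map_one] at h2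
    set t := toFibre p n i (PowerSeries.coeff 1 g)
    set t' := toFibre p n i (PowerSeries.coeff 1 g')
    have h3 := Ideal.mul_mem_left _ (t ^ a * t ^ b) h1
    have ha : t ^ a * t' ^ a = 1 := by rw [← mul_pow, h2, one_pow]
    have hb : t ^ b * t' ^ b = 1 := by rw [← mul_pow, h2, one_pow]
    convert h3 using 1
    change ψ f * _ - _ = _ * (ψ f * _ - _)
    linear_combination (-(ψ f * t ^ b)) * ha + (f * t ^ a) * hb
  · intro H γ φ g ψ hL e
    have hg := LTC.isIso_iff.1 hL.2.1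
    obtain ⟨g', hg', -, k2⟩ := hg.symmC
    rcases H with hf | ⟨j, c, hb, hf⟩
    · exact Ideal.sub_mem _ (Ideal.mul_mem_right _ _ (act_mem o.hH hh hle ⟨g', hg'⟩ e hf))
        (Ideal.mul_mem_right _ _ hf)
    have hdom : IsDomain (MvPowerSeries (Fin (n - h)) k) := NoZeroDivisors.to_isDomain _
    set κ := kl n k h hh hle with hκ
    have hk0 : ∀ x ∈ fibreIdeal n k h, κ x = 0 := fun x hx => (kl_eq_zero hh hle x).2 hx
    have h2 := congrArg (fun x => κ (toFibre p n i x)) (lin_inv hg'.1.1 k2)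
    simp only [map_mul, map_one] at h2
    set t := toFibre p n i (PowerSeries.coeff 1 g)
    set t' := toFibre p n i (PowerSeries.coeff 1 g')
    have c1 : κ (vv i F h) = κ (ψ (vv i F h)) * κ t' ^ (p ^ h - 1) :=
      cocycle o.hH hh hle hg' e (κ : MvPowerSeries (Fin (n - 1)) k →+*
        MvPowerSeries (Fin (n - h)) k) hk0
    have c2 : κ (ψ (vv i F h)) = κ (vv i F h) * κ t ^ (p ^ h - 1) := by
      rw [c1, mul_assoc, ← mul_pow, h2, one_pow, mul_one]
    have h3 : ψ (C c) = C c := ψ.commutes c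
    have d1 := hk0 _ (act_mem o.hH hh hle ⟨g', hg'⟩ e hf)
    have d2 := hk0 _ hf
    simp only [map_sub, map_mul, map_pow, h3] at d1 d2
    rw [c2, mul_pow, ← pow_mul] at d1
    rw [← kl_eq_zero hh hle, hb]
    change κ _ = 0
    simp only [map_sub, map_mul, map_pow]
    linear_combination κ t ^ a * d1 - κ t ^ (a + (p ^ h - 1) * j) * d2

theorem inv_mod (o : Ok Γ F) {h : ℕ} (hh : 1 ≤ h) (hle : h ≤ n) (x : E0 p n) :
    (∀ σ γ φ, LT.Acts p n Γ F σ γ φ → φ x - x ∈ heightIdeal p n h) ↔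
      ∃ m : ℤ, x - m ∈ heightIdeal p n h := by
  constructor
  · intro H
    have hA : (LT.actionGroup p n Γ F).relIndex (LT.actionGroup p n Γ F) ≠ 0 := by
      rw [Subgroup.relIndex_self]
      exact one_ne_zero
    have h0 := (geo o (RingHom.id (GaloisField p n)) _ le_rfl hA).2 h hh hle
      (toFibre p n (RingHom.id (GaloisField p n)) x)
    obtain ⟨c, hc⟩ := h0.1 (by
        intro φ a ψ b
        obtain ⟨σ, γ, a'⟩ := (H260.mem_actionGroup o.hF φ).1 a
        have h9 := toFibre_mem (RingHom.id (GaloisField p n)) hh (H σ γ _ a')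
        rw [map_sub] at h9
        rw [b x]
        exact h9)
    have h1 : c = red p n x := by
      have h2 := (mem_fibre_top o.hn).1 (fibre_mono hle hc)
      rw [map_sub, cc_toFibre, constantCoeff_C, sub_eq_zero] at h2
      exact h2.symm
    obtain ⟨φ, -, hφ⟩ := LTC.acts_iff o.hF (frobeniusEquiv (GaloisField p n) p) PowerSeries.X
      (LTC.isIso_iff.2 C0.isIso_X)
    have h3 := (hφ _).2 rfl
    have h4 : c ^ Nat.card (ZMod p) = c := by
      have h5 := H _ _ _ h3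
      rw [← ker_piH h hh hle, RingHom.mem_ker] at h5
      have h6 := congrArg constantCoeff h5
      obtain ⟨-, g, h7, -⟩ := h3
      have h8 : red p n ((φ : E0 p n →+* E0 p n) x) = red p n x ^ p := RingHom.congr_fun h7 x
      rw [constantCoeff_piH, map_sub, h8, map_zero, sub_eq_zero] at h6
      rw [Nat.card_zmod, h1, h6]
    obtain ⟨z, hz⟩ := bc_exists_of_pow_card (algebraMap (ZMod p) (GaloisField p n)) c h4
    obtain ⟨m, rfl⟩ := ZMod.intCast_surjective z
    refine ⟨m, ?_⟩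
    rw [← hz, map_intCast, map_intCast, ← map_intCast (toFibre p n (RingHom.id _)), ← map_sub,
      ← kl_eq_zero hh hle, kl_toFibre, MvPowerSeries.map_id] at hc
    rw [← ker_piH h hh hle]
    exact hc
  · rintro ⟨m, hm⟩ σ γ ψ a
    obtain ⟨φ, b, hφ⟩ := LTC.acts_iff o.hF σ γ a.1
    have h1 := Ideal.mem_map_of_mem (φ : E0 p n →+* E0 p n) hm
    rw [act_height o.hH hh hle b, map_sub, map_intCast] at h1
    have h2 := Ideal.sub_mem _ h1 hm
    rw [(hφ ψ).1 a]
    rwa [sub_sub_sub_cancel_right] at h2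

omit [Fact p.Prime] in
theorem approx {R : Type*} [CommRing R] (P : R → Prop)
    (hP : ∀ x, P x → ∃ (m : ℤ) (y : R), P y ∧ x = m + p * y) (N : ℕ) :
    ∀ x, P x → ∃ m : ℤ, (p : R) ^ N ∣ x - m := by
  induction N with
  | zero => exact fun x _ => ⟨0, by simp⟩
  | succ N ih =>
    intro x hx
    obtain ⟨m, y, hy, rfl⟩ := hP x hx
    obtain ⟨m', z, hz⟩ := ih y hy
    refine ⟨m + p * m', z, ?_⟩
    push_cast
    linear_combination (p : R) * hz

theorem inv_int (o : Ok Γ F) (x : E0 p n) :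
    (∀ σ γ φ, LT.Acts p n Γ F σ γ φ → φ x = x) ↔
      ∃ w : WittVector p (ZMod p),
        x = C (WittVector.map (algebraMap (ZMod p) (GaloisField p n)) w) := by
  have hdom : IsDomain (E0 p n) := NoZeroDivisors.to_isDomain _
  have hpC : (p : E0 p n) = C (p : WittVector p (GaloisField p n)) := (map_natCast C p).symm
  have hp0 : (p : E0 p n) ≠ 0 := by
    rw [hpC]
    intro h
    exact WittVector.p_nonzero p _ (C_injective (h.trans (map_zero _).symm))
  have hI : heightIdeal p n 1 = Ideal.span {(p : E0 p n)} := by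
    rw [heightIdeal_of_pos le_rfl]
    congr 1
    ext y
    simp
  constructor
  · intro H
    have h1 := fun N => approx (p := p) (fun y : E0 p n => ∀ σ γ φ, LT.Acts p n Γ F σ γ φ → φ y = y)
      (by
        intro y hy
        obtain ⟨m, hm⟩ := (inv_mod o le_rfl o.hn y).1 fun σ γ φ a => by
          rw [hy σ γ φ a, sub_self]
          exact Ideal.zero_mem _
        rw [hI, Ideal.mem_span_singleton] at hm
        obtain ⟨z, hz⟩ := hm
        refine ⟨m, z, fun σ γ φ a => ?_, by rw [← hz]; ring⟩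
        apply mul_left_cancel₀ hp0
        rw [← hz, ← map_natCast φ, ← map_mul, ← hz, map_sub, map_intCast, hy σ γ φ a]) N x H
    have h2 : ∀ N, ∃ m : ℤ, ∀ d, ∀ i < N, (coeff d x).coeff i =
        (coeff d (C (m : WittVector p (GaloisField p n)) : E0 p n)).coeff i := by
      intro N
      obtain ⟨m, z, hz⟩ := h1 N
      refine ⟨m, fun d => ?_⟩
      rw [WittVector.le_coeff_eq_iff_le_sub_coeff_eq_zero,
        ← WittVector.mem_span_p_pow_iff_le_coeff_eq_zero, ← map_sub, map_intCast, hz, hpC,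
        ← map_pow, coeff_C_mul]
      exact Ideal.mul_mem_right _ _ (Ideal.subset_span rfl)
    choose m hm using h2
    refine ⟨WittVector.mk p fun i => (m (i + 1) : WittVector p (ZMod p)).coeff i, ?_⟩
    classical
    ext d i
    rw [hm (i + 1) d i (Nat.lt_succ_self i), coeff_C, coeff_C]
    split_ifs
    · rw [← map_intCast (WittVector.map (p := p) (algebraMap (ZMod p) (GaloisField p n)))]
      rfl
    · rfl
  · rintro ⟨w, rfl⟩ σ γ φ -
    rw [← sub_eq_zero]
    refine CA.eq_zero_of_forall_mem (I := Ideal.span {(p : E0 p n)}) (by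
      rw [← hI]; exact (isPrime_heightIdeal o.hn 1 o.hn).ne_top) fun N => ?_
    obtain ⟨m, z, hz⟩ := approx (p := p) (fun _ : WittVector p (ZMod p) => True) (by
      intro y _
      obtain ⟨m, hm⟩ := ZMod.intCast_surjective (y.coeff 0)
      have h1 : WittVector.constantCoeff (y - (m : WittVector p (ZMod p))) = 0 := by
        rw [map_sub, map_intCast, hm]
        exact sub_self _
      obtain ⟨z, hz⟩ := Ideal.mem_span_singleton.1
        ((WittVector.mem_span_p_iff_coeff_zero_eq_zero (y - (m : WittVector p (ZMod p)))).2 h1)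
      exact ⟨m, z, trivial, by rw [← hz]; ring⟩) N w trivial
    rw [Ideal.span_singleton_pow, Ideal.mem_span_singleton, sub_eq_iff_eq_add.1 hz]
    simp only [map_add, map_mul, map_pow, map_natCast, map_intCast, add_sub_add_right_eq_sub,
      ← mul_sub]
    exact dvd_mul_right _ _

theorem ext_unique (hn : 1 ≤ n) (i : GaloisField p n →+* k) (γ : PowerSeries (GaloisField p n))
    (φ : RingAut (E0 p n))
    (a : LT.Acts p n Γ F (RingEquiv.refl _) γ (φ : E0 p n →+* E0 p n)) :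
    ∃! ψ, Extends p n i φ ψ := by
  obtain ⟨-, g, h1, -⟩ := a
  obtain ⟨ψ, hψ⟩ := exists_ext_hom hn i φ (RingHom.congr_fun h1)
  exact ⟨ψ, hψ, fun ψ' h => h.unique hψ⟩

end Vale.Agent.N217
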