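import Vale.Agent.N217.Geo

/-!
# P217: the Frobenius powers `X^(p^(ne+1))` do not lift to the height `n-1` stratum
-/

namespace Vale.Agent.N217

open Vale.Agent.P217 Vale.Agent.P217.C0 PowerSeries

section Lead

variable {R : Type*} [CommRing R]

theorem cc_subst {s : R⟦X⟧} (hs : constantCoeff s = 0) (f : R⟦X⟧) :
    constantCoeff (f.subst s : R⟦X⟧) = constantCoeff f := by
  have h1 : constantCoeff ((f - C (constantCoeff f)).subst s : R⟦X⟧) = 0 :=
    constantCoeff_subst_eq_zero hs _ (by simp)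
  rw [← coe_substAlgHom (hasSubst_of_cc hs), map_sub, map_sub, sub_eq_zero] at h1
  rw [← coe_substAlgHom (hasSubst_of_cc hs), h1, coe_substAlgHom, subst_C]
  rfl

theorem lead_subst {a b : ℕ} {f s : R⟦X⟧} (hf : X ^ a ∣ f) (hs : X ^ b ∣ s) (hb : 1 ≤ b) :
    X ^ (a * b) ∣ (f.subst s : R⟦X⟧) ∧
      coeff (a * b) (f.subst s : R⟦X⟧) = coeff a f * coeff b s ^ a := by
  have h0 : constantCoeff s = 0 := X_dvd_iff.1 ((dvd_pow_self _ (by omega)).trans hs)
  obtain ⟨f', rfl⟩ := hf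
  obtain ⟨s', hs'⟩ := hs
  have e : ((X ^ a * f').subst s : R⟦X⟧) = X ^ (a * b) * (s' ^ a * f'.subst s) := by
    rw [subst_mul (hasSubst_of_cc h0), subst_pow (hasSubst_of_cc h0),
      subst_X (hasSubst_of_cc h0)]
    conv_lhs => rw [show s ^ a = X ^ (a * b) * s' ^ a by rw [hs', mul_pow, ← pow_mul, mul_comm b]]
    rw [mul_assoc]
  have c0 : ∀ (m : ℕ) (g : R⟦X⟧), coeff m (X ^ m * g) = constantCoeff g := fun m g => by
    have := coeff_X_pow_mul g m 0
    rwa [zero_add, coeff_zero_eq_constantCoeff_apply] at this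
  refine ⟨⟨_, e⟩, ?_⟩
  rw [e, c0, c0, map_mul, map_pow, cc_subst h0, hs', c0, mul_comm]

/-- iterated composition. -/
noncomputable def itr (s : R⟦X⟧) : ℕ → R⟦X⟧
  | 0 => X
  | m + 1 => s.subst (itr s m)

theorem itr_hom {G : FormalGroup R} {s : R⟦X⟧} (hs : IsHom G G s) (m : ℕ) :
    IsHom G G (itr s m) := by
  induction m with
  | zero => exact isHom_X
  | succ m ih => exact ih.compC hs

theorem itr_lead [IsDomain R] {s : R⟦X⟧} {r : ℕ} (hr : 1 ≤ r) (h1 : X ^ r ∣ s)
    (h2 : coeff r s ≠ 0) (m : ℕ) : X ^ (r ^ m) ∣ itr s m ∧ coeff (r ^ m) (itr s m) ≠ 0 := by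
  induction m with
  | zero => simp [itr]
  | succ m ih =>
    have h := lead_subst h1 ih.1 (Nat.one_le_pow _ _ hr)
    rw [pow_succ']
    exact ⟨h.1, by rw [itr, h.2]; exact mul_ne_zero h2 (pow_ne_zero _ ih.2)⟩

theorem itr_map {S : Type*} [CommRing S] (ρ : R →+* S) {G : FormalGroup R} {s : R⟦X⟧}
    (hs : IsHom G G s) {a : ℕ} (ha : s.map ρ = X ^ a) (m : ℕ) :
    (itr s m).map ρ = X ^ a ^ m := by
  induction m with
  | zero => simp [itr]
  | succ m ih =>
    have h0 := (itr_hom hs m).1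
    have h1 := cc_map ρ h0
    rw [itr, ps_map_subst ρ h0, ha, subst_pow (hasSubst_of_cc h1), subst_X (hasSubst_of_cc h1), ih,
      ← pow_mul, pow_succ]

theorem hom_neg {G : FormalGroup R} [G.IsComm] {z : G.Point Unit} (hz : IsHom G G z.val) :
    IsHom G G (-z).val := by
  have key : ∀ x : G.Point (Fin 2), (PowerSeries.subst x.val ((-z).val : R⟦X⟧) :
      MvPowerSeries (Fin 2) R) = (-(homPt z.val hz x)).val := fun x =>
    subst_comp_subst_apply z.prop x.prop (iota G)
  refine IsHom.ofPtC (constantCoeff_subst_eq_zero hz.1 _ (constantCoeff_iota G)) ?_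
  have e0 := key (ptX G 0)
  have e1 := key (ptX G 1)
  rw [ptX_val] at e0 e1
  rw [key, e0, e1, map_add, neg_add]
  rfl

theorem hom_sub {G : FormalGroup R} [G.IsComm] {z w : G.Point Unit} (hz : IsHom G G z.val)
    (hw : IsHom G G w.val) : IsHom G G (z - w).val := by
  rw [sub_eq_add_neg]
  exact hz.addC (hom_neg hw)

theorem pow_nsmul_val {G : FormalGroup R} [G.IsComm] {p q : ℕ} (hG : multSeries G p = X ^ q)
    (z : G.Point Unit) (e : ℕ) : (p ^ e • z).val = z.val ^ q ^ e := by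
  induction e with
  | zero => simp
  | succ e ih =>
    rw [pow_succ', mul_nsmul', nsmul_val, hG, subst_pow (p ^ e • z).prop, subst_X (p ^ e • z).prop,
      ih, ← pow_mul, pow_succ]

end Lead

variable {p n : ℕ} [Fact p.Prime] {k : Type} [Field k] {Γ : FormalGroup (ZMod p)}
  {F : FormalGroup (E0 p n)}

theorem end_ext (hF : IsUniversalDeformation p n Γ F) {i : GaloisField p n →+* k}
    {β : E0 p n →+* k⟦X⟧} (hβ : ∀ x, constantCoeff (β x) = i (red p n x)) {a b : k⟦X⟧⟦X⟧}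
    (ha : IsHom (F.map β) (F.map β) a) (hb : IsHom (F.map β) (F.map β) b)
    (h : a.map constantCoeff = b.map constantCoeff) : a = b := by
  have := hF.comm
  have hc : IsAdicComplete (IsLocalRing.maximalIdeal k⟦X⟧) k⟦X⟧ := by
    rw [maximalIdeal_eq_span_X]
    infer_instance
  have hres : IsLocalRing.residue k⟦X⟧ =
      ((IsLocalRing.residue k⟦X⟧).comp C).comp constantCoeff := by
    ext1 x
    rw [RingHom.comp_apply, RingHom.comp_apply, ← sub_eq_zero, ← map_sub,
      IsLocalRing.residue_eq_zero_iff, ← ker_coeff_eq_max_ideal, RingHom.mem_ker]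
    simp
  set z : (F.map β).Point Unit := pt _ a ha.1 - pt _ b hb.1 with hz
  have hz0 : mapPt constantCoeff z = 0 := by
    rw [hz, map_sub, sub_eq_zero]
    exact Subtype.ext h
  have hw : IsHom (F.map β) (F.map β) (ptX (F.map β) () + z).val :=
    isHom_X.addC (hom_sub ha hb)
  have hw1 : PowerSeries.map constantCoeff (ptX (F.map β) () + z).val = X := by
    have h1 : mapPt constantCoeff (ptX (F.map β) () + z) = mapPt constantCoeff (ptX (F.map β) ()) := by
      rw [map_add, hz0, add_zero]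
    exact (congrArg Subtype.val h1).trans (PowerSeries.map_X _)
  have hu : IsUnit (coeff 1 ((ptX (F.map β) () + z).val : k⟦X⟧⟦X⟧)) := by
    have h1 := congrArg (coeff 1) hw1
    rw [coeff_map, coeff_one_X] at h1
    rw [isUnit_iff_constantCoeff, h1]
    exact isUnit_one
  have hx : (IsLocalRing.residue k⟦X⟧).comp β =
      (((IsLocalRing.residue k⟦X⟧).comp C).comp i).comp (red p n) := by
    ext1 x
    rw [RingHom.comp_apply, hres]
    simp only [RingHom.comp_apply, hβ, constantCoeff_C]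
  have h2 := (rigid hF _ hx hx ⟨hw, hu⟩ (by rw [hres, ← ps_map_comp, hw1, PowerSeries.map_X])).2
  have h3 : ptX (F.map β) () + z = ptX (F.map β) () := Subtype.ext h2
  rw [add_eq_left, hz, sub_eq_zero] at h3
  exact congrArg Subtype.val h3

theorem no_lift (hn : 2 ≤ n) (hF : IsUniversalDeformation p n Γ F) {i : GaloisField p n →+* k}
    {β : E0 p n →+* k⟦X⟧} (hβ : ∀ x, constantCoeff (β x) = i (red p n x))
    (hP : (multSeries (F.map β) p).map constantCoeff = X ^ p ^ n)
    (h1 : X ^ p ^ (n - 1) ∣ multSeries (F.map β) p)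
    (h2 : coeff (p ^ (n - 1)) (multSeries (F.map β) p) ≠ 0) {α : k⟦X⟧⟦X⟧}
    (hα : IsHom (F.map β) (F.map β) α) {e : ℕ}
    (hl : α.map constantCoeff = X ^ p ^ (n * e + 1)) : False := by
  have := hF.comm
  have hp : p.Prime := Fact.out
  have hPh : IsHom (F.map β) (F.map β) (multSeries (F.map β) p) := C0.isHom_multSeries p
  have hEq : itr α n = itr (multSeries (F.map β) p) (n * e + 1) := by
    refine end_ext hF hβ (itr_hom hα _) (itr_hom hPh _) ?_
    rw [itr_map _ hα hl, itr_map _ hPh hP, ← pow_mul, ← pow_mul, mul_comm]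
  have hα0 : α ≠ 0 := fun h => by
    rw [h, map_zero] at hl
    exact pow_ne_zero _ X_ne_zero hl.symm
  set r := α.order.toNat with hr
  have a1 : X ^ r ∣ α := X_pow_order_dvd
  have a2 : coeff r α ≠ 0 := coeff_order hα0
  have a3 : 1 ≤ r := by
    by_contra h
    rw [show r = 0 by omega, coeff_zero_eq_constantCoeff_apply] at a2
    exact a2 hα.1
  obtain ⟨b1, b2⟩ := itr_lead a3 a1 a2 n
  obtain ⟨c1, c2⟩ := itr_lead (Nat.one_le_pow _ _ hp.pos) h1 h2 (n * e + 1)
  rw [← hEq] at c1 c2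
  have hrn : r ^ n = (p ^ (n - 1)) ^ (n * e + 1) :=
    le_antisymm (not_lt.1 fun h => c2 (X_pow_dvd_iff.1 b1 _ h))
      (not_lt.1 fun h => b2 (X_pow_dvd_iff.1 c1 _ h))
  rw [← pow_mul] at hrn
  have hd : r ∣ p ^ ((n - 1) * (n * e + 1)) := hrn ▸ dvd_pow_self r (by omega)
  obtain ⟨c, -, hc⟩ := (Nat.dvd_prime_pow hp).1 hd
  rw [hc, ← pow_mul] at hrn
  have h3 := Nat.pow_right_injective hp.two_le hrn
  obtain ⟨m, rfl⟩ : ∃ m, n = m + 1 := ⟨n - 1, by omega⟩
  rw [Nat.add_sub_cancel] at h3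
  have h4 : m + 1 ∣ (m + 1) * (m * e) + m := ⟨c, by rw [mul_comm (m + 1) c, h3]; ring⟩
  have h5 := Nat.le_of_dvd (by omega) ((Nat.dvd_add_right (dvd_mul_right _ _)).1 h4)
  omega

/-- elements of the stabilizer group close to the identity. -/
theorem exists_close (hF : IsUniversalDeformation p n Γ F) [F.IsComm] {e : ℕ} (he : 1 ≤ e) :
    ∃ (φ : RingAut (E0 p n)) (g : (E0 p n)⟦X⟧) (b0 : constantCoeff (X ^ p : (E0 p n)⟦X⟧) = 0),
      IsIso F (F.map (φ : E0 p n →+* E0 p n)) g ∧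
      (∀ r, φ r - r ∈ Ideal.span {(p : E0 p n)} ⊔ IsLocalRing.maximalIdeal (E0 p n) ^ e) ∧
      g.map (red p n) = (bser F _ b0 e).map (red p n) := by
  have := CA.isAdicComplete_E0 (p := p) (n := n)
  have hp : p.Prime := Fact.out
  set Q := Ideal.span {(p : E0 p n)} ⊔ IsLocalRing.maximalIdeal (E0 p n) ^ e with hQ
  have hQm : Q ≤ IsLocalRing.maximalIdeal (E0 p n) :=
    sup_le ((Ideal.span_singleton_le_iff_mem _).2 p_mem_maximalIdeal_E0)
      (Ideal.pow_le_self (by omega))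
  have hnt : Nontrivial (E0 p n ⧸ Q) := Ideal.Quotient.nontrivial_iff.2 fun h => by
    rw [h, top_le_iff] at hQm
    exact (IsLocalRing.maximalIdeal.isMaximal _).ne_top hQm
  have hx : Function.Surjective (Ideal.Quotient.mk Q) := Ideal.Quotient.mk_surjective
  have hl : IsLocalRing (E0 p n ⧸ Q) := IsLocalRing.of_surjective' _ hx
  have hmC : IsLocalRing.maximalIdeal (E0 p n ⧸ Q) ≤
      (IsLocalRing.maximalIdeal (E0 p n)).map (Ideal.Quotient.mk Q) := by
    intro a ha
    obtain ⟨c, rfl⟩ := hx a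
    refine Ideal.mem_map_of_mem _ ?_
    intro hc
    exact ha (hc.map _)
  have hm : IsLocalRing.maximalIdeal (E0 p n ⧸ Q) ^ e ≤ Ideal.span {(p : E0 p n ⧸ Q)} := by
    refine (Ideal.pow_right_mono hmC e).trans ?_
    rw [← Ideal.map_pow]
    refine (Ideal.map_mono (le_sup_right : _ ≤ Q)).trans ?_
    rw [Ideal.map_quotient_self]
    exact bot_le
  have b0 : constantCoeff (X ^ p : (E0 p n)⟦X⟧) = 0 := by
    rw [map_pow, constantCoeff_X, zero_pow hp.ne_zero]
  have hp0 : Ideal.span {(p : E0 p n ⧸ Q)} ^ (0 + 1) = ⊥ := by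
    rw [zero_add, pow_one, Ideal.span_singleton_eq_bot, ← map_natCast (Ideal.Quotient.mk Q),
      Ideal.Quotient.eq_zero_iff_mem]
    exact Ideal.mem_sup_left (Ideal.subset_span rfl)
  obtain ⟨φ, g, h1, h2, h3⟩ := exists_step hF (Ideal.Quotient.mk Q) hx he hm (X ^ p) b0 (by
    rw [map_pow, PowerSeries.map_X]
    have h := FA.isHom_X_pow Γ (algebraMap (ZMod p) (GaloisField p n)) 1
    rwa [pow_one] at h) 0
  rw [hp0] at h2 h3
  refine ⟨φ, g, b0, h1, fun r => ?_, ?_⟩
  · rw [← Ideal.Quotient.mk_eq_mk_iff_sub_mem, ← sub_eq_zero]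
    exact h2 r
  · ext d
    have h4 := mem_CI.1 h3 (Finsupp.single () d)
    rw [zero_add, ← map_sub, Ideal.mem_bot] at h4
    change coeff d (PowerSeries.map _ _) = 0 at h4
    rw [coeff_map, Ideal.Quotient.eq_zero_iff_mem] at h4
    have h5 := hQm h4
    rw [← ker_red, RingHom.mem_ker, map_sub, map_sub, sub_eq_zero] at h5
    rw [coeff_map, coeff_map, h5]

end Vale.Agent.N217
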